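import Vale.Agent.P141.H970.SkelG

/-!
# P141, line (A): the generations for every functional of slots (births, near term)

`PartRg q θ α D T` : the price of every generation of a functional `T` of slots without planes;
`partR_gen : PartRg → PartR`; instances for the births, the near term, the shift error and the node
forms: `partF_fB_gen`, `partF_fN_gen`, `partF_fS_gen'`, `partF_fM_gen'`.
-/

namespace Vale.Agent.P141.H970.SkG

open Finset Matrix
open Vale.Agent.P141.PL (Pt iv hs ix mem_iv ix_ix cb mem_cb cx)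
open Vale.Agent.P141.PL.H315 (Tri)
open Vale.Agent.P141.H677
open Vale.Agent.P141.H677.Sk
open Vale.Agent.P141.H401 (StX PartX Bun PartF)
open Vale.Agent.P141.H305 (ClsM kapM)

noncomputable section

open scoped Classical

variable {ι : Type} [Fintype ι] [DecidableEq ι]

theorem fB_gen (l : ℝ) (o : ℤ) (Al : ℕ → Pt → Prop) (K : ℕ) (x : Pt) (u : ℤ → ℤ → ι → ℝ)
    (A : FamA) (b C : FamV ι) (sg : ℕ → Pt → ℝ) (κ : ℕ → ℝ) :
    fB ι l o Al K x u A b C sg ≤
      ∑ g ∈ range (K + 1), qB K (cx K x) (slg Al o K (cx K x) sg l u κ g) A b C := by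
  unfold fB
  rw [sl_gen Al o K (cx K x) sg l u κ]
  exact qB_sum (range (K + 1)) K (cx K x) (slg Al o K (cx K x) sg l u κ) A b C

theorem fN_gen (l : ℝ) (o : ℤ) (Al : ℕ → Pt → Prop) (K : ℕ) (x : Pt) (u : ℤ → ℤ → ι → ℝ)
    (A : FamA) (b C : FamV ι) (sg : ℕ → Pt → ℝ) (κ : ℕ → ℝ) :
    fN ι l o Al K x u A b C sg ≤
      ∑ g ∈ range (K + 1), qN o K (cx K x) (slg Al o K (cx K x) sg l u κ g) A b C := by
  unfold fN
  rw [sl_gen Al o K (cx K x) sg l u κ]
  exact qN_sum (range (K + 1)) o K (cx K x) (slg Al o K (cx K x) sg l u κ) A b C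

/-- functionals of slots without planes -/
abbrev FunR : Type 1 :=
  ∀ (ι : Type) [Fintype ι] [DecidableEq ι], ℤ → ℕ → Pt → Slt ι → FamA → FamV ι → FamV ι → ℝ

/-- a functional of slots which is subadditive -/
def SubR (T : FunR) : Prop :=
  ∀ (ι : Type) [Fintype ι] [DecidableEq ι] (gs : Finset ℕ) (o : ℤ) (K : ℕ) (M : Pt)
    (R : ℕ → Slt ι) (A : FamA) (b C : FamV ι),
    T ι o K M (fun x0 j z x => ∑ g ∈ gs, R g x0 j z x) A b C ≤ ∑ g ∈ gs, T ι o K M (R g) A b C

/-- the price of a functional of slots -/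
def PartR (D : Bun) (T : FunR) : Prop :=
  PartX fun ι _ _ p n ez F1 F2 F3 o K x s r U g u v B =>
    ∀ (A : FamA) (b C : FamV ι), D ι p n ez F1 F2 F3 o K x s r U g u v A b C →
      ∀ sg : ℕ → Pt → ℝ, (∀ k m, |sg k m| ≤ 1) →
        T ι o K (cx K x) (sl (p.al U K) o K (cx K x) sg (p.lam s r) u) A b C ≤ B

/-- **The price of every generation of a functional of slots.** -/
def PartRg (q : ℕ) (θ α : ℝ) (D : Bun) (T : FunR) : Prop :=
  PartXg q θ α fun ι _ _ p n ez F1 F2 F3 o K x s r U g u v γ B =>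
    ∀ (A : FamA) (b C : FamV ι), D ι p n ez F1 F2 F3 o K x s r U g u v A b C →
      ∀ sg : ℕ → Pt → ℝ, (∀ k m, |sg k m| ≤ 1) →
        T ι o K (cx K x) (slg (p.al U K) o K (cx K x) sg (p.lam s r) u (kg p.t r α) γ) A b C ≤ B

/-- **The price from the prices of the generations.** -/
theorem partR_gen {q : ℕ} {θ α : ℝ} (hθ : 0 < θ) (hα : 1 ≤ α) {D : Bun} {T : FunR}
    (hT : SubR T) (H : PartRg q θ α D T) : PartR D T := by
  refine H.sum hθ hα ?_
  intro ι _ _ p n ez F1 F2 F3 o K x s r U g u v B1 B _ _ _ _ _ h1 h2 A b C hD sg hsg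
  rw [sl_gen (p.al U K) o K (cx K x) sg (p.lam s r) u (kg p.t r α)]
  refine (hT ι (range (K + 1)) o K (cx K x) _ A b C).trans (le_trans (sum_le_sum ?_) h2)
  intro γ hγ
  exact h1 γ (by have := mem_range.1 hγ; omega) A b C hD sg hsg

/-- **The births from the generations.** -/
theorem partF_fB_gen {q : ℕ} {θ α : ℝ} (hθ : 0 < θ) (hα : 1 ≤ α) {D : Bun}
    (H : PartRg q θ α D fun _ι _ _ _o K M R A b C => qB K M R A b C) : PartF D fB :=
  partR_gen hθ hα (T := fun _ι _ _ _o K M R A b C => qB K M R A b C)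
    (fun _ι _ _ gs _o K M R A b C => qB_sum gs K M R A b C) H

/-- **The near term from the generations.** -/
theorem partF_fN_gen {q : ℕ} {θ α : ℝ} (hθ : 0 < θ) (hα : 1 ≤ α) {D : Bun}
    (H : PartRg q θ α D fun _ι _ _ o K M R A b C => qN o K M R A b C) : PartF D fN :=
  partR_gen hθ hα (T := fun _ι _ _ o K M R A b C => qN o K M R A b C)
    (fun _ι _ _ gs o K M R A b C => qN_sum gs o K M R A b C) H

/-- **The shift error from the generations**, no planes. -/
theorem partF_fS_gen' {q : ℕ} {θ α : ℝ} (hθ : 0 < θ) (hα : 1 ≤ α) {D : Bun}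
    (H : PartRg q θ α D fun _ι _ _ _o K M R A b C => qS K M R A b C) : PartF D fS :=
  partR_gen hθ hα (T := fun _ι _ _ _o K M R A b C => qS K M R A b C)
    (fun _ι _ _ gs _o K M R A b C => qS_sum gs K M R A b C) H

/-- **The node forms from the generations**, no planes. -/
theorem partF_fM_gen' {q : ℕ} {θ α : ℝ} (hθ : 0 < θ) (hα : 1 ≤ α) {D : Bun}
    (H : PartRg q θ α D fun _ι _ _ _o K M R A b C => qM K M R A b C) : PartF D fM :=
  partR_gen hθ hα (T := fun _ι _ _ _o K M R A b C => qM K M R A b C)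
    (fun _ι _ _ gs _o K M R A b C => qM_sum gs K M R A b C) H

end

end Vale.Agent.P141.H970.SkG
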