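import Vale.Agent.P141.H677.SkelTF2
import Vale.Agent.P141.H540.GenRA
import Vale.Agent.P141.H582.GenSum

/-!
# P141, line (A): the flow part, generations of the moving slot

* `slg g` : the slot of the generation `g`, `sl_gen` : their sum is `sl`;
* `fS_gen`, `fM_gen`, `FM1_gen`, `FS1_gen` : shift error and node forms are at most the sums over
  the generations;
* `kg`, `eg` : caps and energies of the generations in the units of the classes;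
* `PartXg`, `PartGg D T` : the price of every generation; `partG_gen : PartGg → PartG`,
  hence `partF_fM_gen`, `partF_fS_gen`.
-/

namespace Vale.Agent.P141.H970.SkG

open Finset Matrix
open Vale.Agent.P141.PL (Pt iv hs ix mem_iv ix_ix cb mem_cb cx)
open Vale.Agent.P141.PL.H315 (Tri)
open Vale.Agent.P141.H48 (US ES cst)
open Vale.Agent.P141.H795 (E8)
open Vale.Agent.P141.H677
open Vale.Agent.P141.H677.Sk
open Vale.Agent.P141.H401 (StX PartX Bun PartF)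
open Vale.Agent.P141.H305 (ClsM kapM)

noncomputable section

open scoped Classical

variable {ι : Type} [Fintype ι] [DecidableEq ι]

/-- **the slot of the generation `g`**, caps `κ` -/
def slg (Al : ℕ → Pt → Prop) (o : ℤ) (K : ℕ) (M : Pt) (sg : ℕ → Pt → ℝ) (l : ℝ)
    (u : ℤ → ℤ → ι → ℝ) (κ : ℕ → ℝ) (g : ℕ) : Slt ι :=
  fun x0 j z x => H540.RG Al o K M sg l u κ g j x0 z x

/-- **The slot is the sum of the generations.** -/
theorem sl_gen (Al : ℕ → Pt → Prop) (o : ℤ) (K : ℕ) (M : Pt) (sg : ℕ → Pt → ℝ) (l : ℝ)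
    (u : ℤ → ℤ → ι → ℝ) (κ : ℕ → ℝ) :
    sl Al o K M sg l u = fun x0 j z x =>
      ∑ g ∈ range (K + 1), slg Al o K M sg l u κ g x0 j z x := by
  funext x0 j z x
  unfold sl slg
  exact (H540.RG_sum j x0 z x).symm

theorem slg_top (Al : ℕ → Pt → Prop) (o : ℤ) (K : ℕ) (M : Pt) (sg : ℕ → Pt → ℝ) (l : ℝ)
    (u : ℤ → ℤ → ι → ℝ) (κ : ℕ → ℝ) (g : ℕ) (x0 z x : ℤ) :
    slg Al o K M sg l u κ g x0 K z x = 0 := by
  unfold slg H540.RG H841.Rm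
  rw [Ico_self, sum_empty]

/-- **Shift error and node forms over the generations.** -/
theorem fS_gen (l : ℝ) (o : ℤ) (Al : ℕ → Pt → Prop) (K : ℕ) (x : Pt) (u : ℤ → ℤ → ι → ℝ)
    (A : FamA) (b C : FamV ι) (sg : ℕ → Pt → ℝ) (κ : ℕ → ℝ) :
    fS ι l o Al K x u A b C sg ≤
      ∑ g ∈ range (K + 1), qS K (cx K x) (slg Al o K (cx K x) sg l u κ g) A b C := by
  unfold fS
  rw [sl_gen Al o K (cx K x) sg l u κ]
  exact qS_sum (range (K + 1)) K (cx K x) (slg Al o K (cx K x) sg l u κ) A b C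

theorem fM_gen (l : ℝ) (o : ℤ) (Al : ℕ → Pt → Prop) (K : ℕ) (x : Pt) (u : ℤ → ℤ → ι → ℝ)
    (A : FamA) (b C : FamV ι) (sg : ℕ → Pt → ℝ) (κ : ℕ → ℝ) :
    fM ι l o Al K x u A b C sg ≤
      ∑ g ∈ range (K + 1), qM K (cx K x) (slg Al o K (cx K x) sg l u κ g) A b C := by
  unfold fM
  rw [sl_gen Al o K (cx K x) sg l u κ]
  exact qM_sum (range (K + 1)) K (cx K x) (slg Al o K (cx K x) sg l u κ) A b C

/-- a functional of slots which is subadditive -/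
def SubG (T : FunG) : Prop :=
  ∀ (ι : Type) [Fintype ι] [DecidableEq ι] (gs : Finset ℕ) (K : ℕ) (M : Pt) (R : ℕ → Slt ι)
    (A : FamA) (b C : FamV ι) (h : Pt) (j : ℤ) (e : Pt),
    T ι K M (fun x0 j z x => ∑ g ∈ gs, R g x0 j z x) A b C h j e ≤
      ∑ g ∈ gs, T ι K M (R g) A b C h j e

theorem sub_FM1 : SubG fun _ι _ _ K M R A b C h j e => FM1 K M R A b C h j e := by
  intro ι _ _ gs K M R A b C h j e
  show FM1 K M (fun x0 j z x => ∑ g ∈ gs, R g x0 j z x) A b C h j e ≤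
    ∑ g ∈ gs, FM1 K M (R g) A b C h j e
  unfold FM1
  have e1 : (fun x0 : ℤ => av (fun x0 j z x => ∑ g ∈ gs, R g x0 j z x) h.2.2 x0) =
      fun x0 k z x => ∑ g ∈ gs, av (R g) h.2.2 x0 k z x := by
    funext x0 k z x
    exact av_sum gs R h.2.2 x0 k z x
  have e2 : av (fun x0 j z x => ∑ g ∈ gs, R g x0 j z x) h.2.2 =
      fun x0 k z x => ∑ g ∈ gs, av (R g) h.2.2 x0 k z x := e1
  rw [e2]
  exact FF_sum gs K M (fun g => av (R g) h.2.2) A b C h j e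

theorem sub_FS1 : SubG fun _ι _ _ K M R A b C h j e => FS1 K M R A b C h j e := by
  intro ι _ _ gs K M R A b C h j e
  show FS1 K M (fun x0 j z x => ∑ g ∈ gs, R g x0 j z x) A b C h j e ≤
    ∑ g ∈ gs, FS1 K M (R g) A b C h j e
  unfold FS1
  have e1 : (fun (x0 : ℤ) (k : ℕ) (z x : ℤ) =>
      (fun (x0 : ℤ) (j : ℕ) (z x : ℤ) => ∑ g ∈ gs, R g x0 j z x) x0 (k - 1) z x -
        av (fun x0 j z x => ∑ g ∈ gs, R g x0 j z x) h.2.2 x0 k z x) =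
      fun x0 k z x => ∑ g ∈ gs, (R g x0 (k - 1) z x - av (R g) h.2.2 x0 k z x) := by
    funext x0 k z x
    rw [sum_sub_distrib, av_sum gs R h.2.2 x0 k z x]
  rw [e1]
  exact FF_sum gs K M (fun g x0 k z x => R g x0 (k - 1) z x - av (R g) h.2.2 x0 k z x) A b C h j e

/-! ### Units of the generations -/

/-- the caps, `κ g = (r / t) ^ α 2 ^ g` -/
def kg (t r α : ℝ) (g : ℕ) : ℝ := (r / t) ^ α * 2 ^ g

theorem kg_pos {t r : ℝ} (ht : 0 < t) (hr : 1 ≤ r) (α : ℝ) (g : ℕ) : 0 < kg t r α g := by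
  have h : 0 < r / t := div_pos (by linarith) ht
  unfold kg
  exact mul_pos (Real.rpow_pos_of_pos h _) (by positivity)

/-- the energies of the generations: `t ^ (-c) (t / r) ^ e0` and `(r / t)^2 κ_g ^ (-6)` -/
def eg (c e0 α t r : ℝ) : ℕ → ℝ
  | 0 => t ^ (-c) * (t / r) ^ e0
  | g + 1 => (r / t) ^ 2 / (kg t r α g) ^ 6

theorem eg_pos {t r : ℝ} (ht : 0 < t) (hr : 1 ≤ r) (c e0 α : ℝ) : ∀ g, 0 < eg c e0 α t r g := by
  have hr0 : 0 < r := by linarith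
  intro g
  cases g with
  | zero =>
    unfold eg
    exact mul_pos (Real.rpow_pos_of_pos ht _) (Real.rpow_pos_of_pos (div_pos ht hr0) _)
  | succ g =>
    unfold eg
    exact div_pos (pow_pos (div_pos hr0 ht) 2) (pow_pos (kg_pos ht hr α g) 6)

/-- the logarithm of the generation -/
def lg (t r : ℝ) (g : ℕ) : ℝ := 1 + Real.log (r / t) + g

theorem lg_ge {t r : ℝ} (ht : 0 < t) (ht1 : t ≤ 1) (hr : 1 ≤ r) (g : ℕ) : 1 ≤ lg t r g := by
  have hρ : 1 ≤ r / t := by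
    rw [le_div_iff₀ ht]
    linarith
  have h1 := Real.log_nonneg hρ
  have h2 : (0 : ℝ) ≤ g := Nat.cast_nonneg g
  unfold lg
  linarith

/-- statements about class data and a generation, with a bound -/
abbrev StG : Type 1 :=
  ∀ (ι : Type) [Fintype ι] [DecidableEq ι], H401.Num → ℕ → ℝ → (ℕ → Pt → ℝ) → (ℕ → Pt → ℝ) →
    (ℕ → Pt → ℝ) → ℤ → ℕ → Pt → ℝ → ℝ → Tri → (ℤ → ℤ → ℝ) → (ℤ → ℤ → ι → ℝ) →
    (ℤ → ℤ → ι → ℝ) → ℕ → ℝ → Prop

/-- **The quantifiers, with the price of the generation `g`**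
`C (t / r) ^ (-los) t s^(5/4) √ez 8^K (1 + log (r / t) + g)^q (energy g)^θ`, `los < e0 θ / 2`. -/
def PartXg (q : ℕ) (θ α : ℝ) (Φ : StG) : Prop :=
  ∀ a : ℝ, 0 < a → a ≤ 1 →
  ∃ es : ℝ, 0 < es ∧ ∀ e0 : ℝ, 0 < e0 → e0 ≤ es →
  ∃ k8s : ℝ, 0 < k8s ∧ ∀ k8 : ℝ, 0 < k8 → k8 ≤ k8s →
  ∃ k3s : ℝ, 0 < k3s ∧ ∀ k3 : ℝ, 0 < k3 → k3 ≤ k3s →
  ∃ los c1 d0 : ℝ, los < e0 * θ / 2 ∧ 0 < c1 ∧ 0 < d0 ∧ ∀ c : ℝ, 0 ≤ c → c ≤ c1 →
  ∀ d : ℝ, 0 < d → d ≤ d0 →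
  ∀ Kt e cP L : ℝ, 0 < Kt → 1 ≤ e → 0 ≤ cP → 1 ≤ L → ∀ CD : ℝ, 1 ≤ CD → ∃ C : ℝ, 0 ≤ C ∧
  ∀ t : ℝ, 0 < t → t ≤ 1 → ∀ (n : ℕ) (ez : ℝ) (F1 F2 F3 : ℕ → Pt → ℝ),
    US n (Kt * t ^ (1 - c)) e cP F1 → US n (Kt * t ^ (1 - c)) e cP F3 → ES n ez cP F2 →
  ∀ o : ℤ, o = 1 ∨ o = -1 → ∀ K ≤ n, ∀ (x : Pt) (ι : Type) [Fintype ι] [DecidableEq ι]
    (s r : ℝ) (U : Tri) (g : ℤ → ℤ → ℝ) (u v : ℤ → ℤ → ι → ℝ), 0 < s → 1 ≤ r →
    ClsM K x s r (L * t ^ (2 - c) * √s) (kapM L t a s r) U g u v →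
    ∀ γ ≤ K, Φ ι ⟨a, e0, k8, k3, c, d, Kt, e, cP, L, CD, t⟩ n ez F1 F2 F3 o K x s r U g u v γ
      (C * (t ^ (1 - los) * s ^ (5 / 4 : ℝ) * √ez * 8 ^ K) * r ^ los *
        (lg t r γ ^ q * eg c e0 α t r γ ^ θ))

/-- **The price from the prices of the generations.** -/
theorem PartXg.sum {q : ℕ} {θ α : ℝ} (hθ : 0 < θ) (hα : 1 ≤ α) {Φ1 : StG} {Φ : StX}
    (H : PartXg q θ α Φ1)
    (h : ∀ (ι : Type) [Fintype ι] [DecidableEq ι] (p : H401.Num) (n : ℕ) (ez : ℝ)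
      (F1 F2 F3 : ℕ → Pt → ℝ) (o : ℤ) (K : ℕ) (x : Pt) (s r : ℝ) (U : Tri) (g : ℤ → ℤ → ℝ)
      (u v : ℤ → ℤ → ι → ℝ) (B1 : ℕ → ℝ) (B : ℝ), 0 < p.t → p.t ≤ 1 → 0 < s → 1 ≤ r →
      o = 1 ∨ o = -1 → (∀ γ ≤ K, Φ1 ι p n ez F1 F2 F3 o K x s r U g u v γ (B1 γ)) →
      ∑ γ ∈ range (K + 1), B1 γ ≤ B → Φ ι p n ez F1 F2 F3 o K x s r U g u v B) : PartX Φ := by
  intro a ha ha1
  obtain ⟨es, hes, H⟩ := H a ha ha1
  refine ⟨min es 1, lt_min hes one_pos, fun e0 he0 he0' => ?_⟩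
  obtain ⟨k8, hk8, H⟩ := H e0 he0 (he0'.trans (min_le_left _ _))
  refine ⟨k8, hk8, fun k8' hk8' hk8'' => ?_⟩
  obtain ⟨k3, hk3, H⟩ := H k8' hk8' hk8''
  refine ⟨k3, hk3, fun k3' hk3' hk3'' => ?_⟩
  obtain ⟨los, c1, d1, hlos, hc1, hd1, H⟩ := H k3' hk3' hk3''
  obtain ⟨Cg, hCg, G⟩ := H582.gen_price q hθ he0 (he0'.trans (min_le_right _ _)) hα
    (zero_le_one' ℝ) (zero_le_one' ℝ) (zero_le_one' ℝ)
  refine ⟨e0 * θ / 2 - los, min c1 (e0 / 4), d1, e0 * θ / 2 - los, by linarith,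
    lt_min hc1 (by linarith), hd1, by linarith,
    fun c' hc' hcc d hd hdd Kt e cP L hK he hcP hL CD hCD => ?_⟩
  obtain ⟨C, hC, H⟩ := H c' hc' (hcc.trans (min_le_left _ _)) d hd hdd Kt e cP L hK he hcP hL CD
    hCD
  refine ⟨C * Cg, by positivity, ?_⟩
  intro t ht ht1 n ez F1 F2 F3 h1 h3 h2 o ho K hKn x ι _ _ s r U g u v hs hr hcls
  have hr0 : 0 < r := by linarith
  refine h ι _ n ez F1 F2 F3 o K x s r U g u v _ _ ht ht1 hs hr ho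
    (H t ht ht1 n ez F1 F2 F3 h1 h3 h2 o ho K hKn x ι s r U g u v hs hr hcls) ?_
  have k1 := G c' hc' (hcc.trans (min_le_right _ _)) t ht ht1 r hr (eg c' e0 α t r) (lg t r)
    (fun g => (eg_pos ht hr c' e0 α g).le)
    (fun g => le_trans zero_le_one (lg_ge ht ht1 hr g))
    (fun g => le_of_eq (by unfold lg; ring))
    (le_of_eq (by unfold eg; ring))
    (fun g => le_of_eq (by
      show (r / t) ^ 2 / (kg t r α g) ^ 6 = _
      unfold kg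
      ring)) K
  rw [← mul_sum]
  have hz : 0 ≤ C * (t ^ (1 - los) * s ^ (5 / 4 : ℝ) * √ez * 8 ^ K) * r ^ los := by
    have z1 : 0 ≤ t ^ (1 - los) := (Real.rpow_pos_of_pos ht _).le
    have z2 : 0 ≤ s ^ (5 / 4 : ℝ) := (Real.rpow_pos_of_pos hs _).le
    have z3 : 0 ≤ r ^ los := (Real.rpow_pos_of_pos hr0 _).le
    have z4 : 0 ≤ √ez := Real.sqrt_nonneg _
    positivity
  refine (mul_le_mul_of_nonneg_left k1 hz).trans (le_of_eq ?_)
  have e1 : t ^ (1 + (e0 * θ / 2 - los)) = t ^ (1 - los) * t ^ (e0 * θ / 2) := by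
    rw [← Real.rpow_add ht]
    congr 1
    ring
  have e2 : r ^ (-(e0 * θ / 2 - los)) = r ^ los * r ^ (-(e0 * θ / 2)) := by
    rw [← Real.rpow_add hr0]
    congr 1
    ring
  rw [e1, e2]
  ring

/-- **The price of every generation on every plane of every grid.** -/
def PartGg (q : ℕ) (θ α : ℝ) (D : Bun) (T : FunG) : Prop :=
  PartXg q θ α fun ι _ _ p n ez F1 F2 F3 o K x s r U g u v γ B =>
    ∀ (A : FamA) (b C : FamV ι), D ι p n ez F1 F2 F3 o K x s r U g u v A b C →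
      ∀ sg : ℕ → Pt → ℝ, (∀ k m, |sg k m| ≤ 1) → ∀ h ∈ cb K 0, ∀ j ∈ Icc (0 : ℤ) 2, ∀ e ∈ E8,
        T ι K (cx K x) (slg (p.al U K) o K (cx K x) sg (p.lam s r) u (kg p.t r α) γ) A b C h j e
          ≤ B

/-- **The price on every plane of every grid from the prices of the generations.** -/
theorem partG_gen {q : ℕ} {θ α : ℝ} (hθ : 0 < θ) (hα : 1 ≤ α) {D : Bun} {T : FunG}
    (hT : SubG T) (H : PartGg q θ α D T) : PartG D T := by
  refine H.sum hθ hα ?_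
  intro ι _ _ p n ez F1 F2 F3 o K x s r U g u v B1 B _ _ _ _ _ h1 h2 A b C hD sg hsg h hh j hj e he
  rw [sl_gen (p.al U K) o K (cx K x) sg (p.lam s r) u (kg p.t r α)]
  refine (hT ι (range (K + 1)) K (cx K x) _ A b C h j e).trans (le_trans (sum_le_sum ?_) h2)
  intro γ hγ
  exact h1 γ (by have := mem_range.1 hγ; omega) A b C hD sg hsg h hh j hj e he

/-- **The node forms from the generations.** -/
theorem partF_fM_gen {q : ℕ} {θ α : ℝ} (hθ : 0 < θ) (hα : 1 ≤ α) {D : Bun}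
    (H : PartGg q θ α D fun _ι _ _ K M R A b C h j e => FM1 K M R A b C h j e) : PartF D fM :=
  partF_fM (partG_gen hθ hα sub_FM1 H)

/-- **The shift error from the generations.** -/
theorem partF_fS_gen {q : ℕ} {θ α : ℝ} (hθ : 0 < θ) (hα : 1 ≤ α) {D : Bun}
    (H : PartGg q θ α D fun _ι _ _ K M R A b C h j e => FS1 K M R A b C h j e) : PartF D fS :=
  partF_fS (partG_gen hθ hα sub_FS1 H)

end

end Vale.Agent.P141.H970.SkG
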