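import Vale.Agent.P141.H483.Moving

/-!
# P141, line (A), [T3]: the cap of the moving matrix by the fourth moment

Letters of `H420.FlowM`, `H483.Chain`, `H483.Moving`: `M = √l K⁻¹ dK K⁻¹` at a cell (`Mx`), and a
matrix path `R (child) = R (parent) ± N`, `N = θ M`, `θ ∈ [-1, 1]`.

* `Mx_op` : `|M x|² ≤ |x|²`;
* `Mx_tree` : `SUM |M|_HS² ≤ tr G_top / (2 l)`;
* `tr4_step` : `(1/2) SUM_± tr (R ± N)⁴ ≤ tr R⁴ + 6 |N R|_HS² + |N|_HS²`;
* `moveR_tree` : `SUM |M R|_HS² ≤ 2 |R_top|_HS² + 4 SUM |N|_HS²`;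
* `tr4_tree` : `mean tr R_END⁴ ≤ tr R_top⁴ + 12 |R_top|_HS² + 25 SUM |N|_HS²`;
* `exists_cap`, `Cap.dead_le`, `Cap.op_le` : the stopped path: `|R_N x| ≤ (κ + 1) |x|` at every cell,
  the dead leaves have mean at most `25 tr G_top / (2 l κ⁴)`;
* `Cap.dead_energy` : `SUM 1_dead |M v|² ≤ |v|² mean 1_dead`.
-/

namespace Vale.Agent.P141.H970

open Matrix Finset
open Vale.Agent.P141.H420 hiding tsum
open Vale.Agent.P141.H483

set_option linter.unusedSectionVars false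

variable {ι : Type*} [Fintype ι] [DecidableEq ι]

/-- the square of the Hilbert-Schmidt norm -/
noncomputable def hs (X : Matrix ι ι ℝ) : ℝ := ∑ i, ∑ j, X i j ^ 2

theorem hs_nonneg (X : Matrix ι ι ℝ) : 0 ≤ hs X :=
  sum_nonneg fun _ _ => sum_nonneg fun _ _ => sq_nonneg _

theorem hs_eq_trace (X : Matrix ι ι ℝ) : hs X = (X * Xᵀ).trace := by
  simp only [hs, trace, diag_apply, mul_apply, transpose_apply]
  exact sum_congr rfl fun i _ => sum_congr rfl fun j _ => by ring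

theorem hs_transpose (X : Matrix ι ι ℝ) : hs Xᵀ = hs X := by
  simp only [hs, transpose_apply]
  exact sum_comm

/-- by columns -/
theorem hs_col (X : Matrix ι ι ℝ) :
    hs X = ∑ c, (X *ᵥ Pi.single c 1) ⬝ᵥ (X *ᵥ Pi.single c 1) := by
  rw [hs, sum_comm]
  refine sum_congr rfl fun c _ => ?_
  rw [mulVec_single_one]
  simp only [dotProduct, col_apply]
  exact sum_congr rfl fun i _ => by ring

theorem hs_smul (c : ℝ) (X : Matrix ι ι ℝ) : hs (c • X) = c ^ 2 * hs X := by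
  simp only [hs, Matrix.smul_apply, smul_eq_mul, mul_pow, mul_sum]

/-- `tr R⁴` of a symmetric matrix, as `|R R|_HS²` -/
noncomputable def tr4 (R : Matrix ι ι ℝ) : ℝ := hs (R * R)

theorem tr4_nonneg (R : Matrix ι ι ℝ) : 0 ≤ tr4 R := hs_nonneg _

theorem tr4_eq {R : Matrix ι ι ℝ} (hR : Rᵀ = R) : tr4 R = (R * R * (R * R)).trace := by
  rw [tr4, hs_eq_trace, transpose_mul, hR]

/-- `tr (R N R N) ≤ |N R|_HS²` -/
theorem trace_comm_le {R N : Matrix ι ι ℝ} (hR : Rᵀ = R) (hN : Nᵀ = N) :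
    (R * N * (R * N)).trace ≤ hs (N * R) := by
  have h1 := hs_nonneg (R * N - N * R)
  have e1 : (N * R * (N * R)).trace = (R * N * (R * N)).trace := by
    rw [Matrix.mul_assoc N R (N * R), trace_mul_comm N (R * (N * R))]
    simp only [Matrix.mul_assoc]
  have e2 : (R * N * (N * R)).trace = (N * R * (R * N)).trace := trace_mul_comm _ _
  rw [hs_eq_trace] at h1 ⊢
  simp only [transpose_sub, transpose_mul, hR, hN, Matrix.mul_sub, Matrix.sub_mul, trace_sub] at h1 ⊢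
  linarith

/-- **one node**: the even part of the fourth moment -/
theorem tr4_step {R N : Matrix ι ι ℝ} (hR : Rᵀ = R) (hN : Nᵀ = N) :
    (1 / 2) * (tr4 (R + N) + tr4 (R - N)) ≤ tr4 R + 6 * hs (N * R) + tr4 N := by
  have h1 := trace_comm_le hR hN
  have e0 : hs (N * R) = (N * R * (R * N)).trace := by
    rw [hs_eq_trace, transpose_mul, hR, hN]
  have ep : (R + N)ᵀ = R + N := by rw [transpose_add, hR, hN]
  have em : (R - N)ᵀ = R - N := by rw [transpose_sub, hR, hN]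
  rw [tr4_eq ep, tr4_eq em, tr4_eq hR, tr4_eq hN]
  rw [e0] at h1 ⊢
  -- cyclic identities
  have c1 : (R * R * (N * N)).trace = (N * R * (R * N)).trace := by
    rw [← Matrix.mul_assoc (R * R) N N, trace_mul_comm (R * R * N) N]
    simp only [Matrix.mul_assoc]
  have c2 : (N * N * (R * R)).trace = (N * R * (R * N)).trace := by
    rw [trace_mul_comm, c1]
  have c3 : (R * N * (N * R)).trace = (N * R * (R * N)).trace := trace_mul_comm _ _
  have c4 : (N * R * (N * R)).trace = (R * N * (R * N)).trace := by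
    rw [Matrix.mul_assoc N R (N * R), trace_mul_comm N (R * (N * R))]
    simp only [Matrix.mul_assoc]
  have key : (1 / 2 : ℝ) * (((R + N) * (R + N) * ((R + N) * (R + N))).trace +
      ((R - N) * (R - N) * ((R - N) * (R - N))).trace) =
      (R * R * (R * R)).trace + (N * N * (N * N)).trace + ((R * R * (N * N)).trace +
        (N * N * (R * R)).trace + (R * N * (N * R)).trace + (N * R * (R * N)).trace +
        (R * N * (R * N)).trace + (N * R * (N * R)).trace) := by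
    have hm : (R + N) * (R + N) * ((R + N) * (R + N)) + (R - N) * (R - N) * ((R - N) * (R - N)) =
        (2 : ℝ) • (R * R * (R * R) + N * N * (N * N) + (R * R * (N * N) +
        N * N * (R * R) + R * N * (N * R) + N * R * (R * N) +
        R * N * (R * N) + N * R * (N * R))) := by
      rw [two_smul]
      noncomm_ring
    have ht := congrArg trace hm
    rw [trace_add, trace_smul] at ht
    simp only [trace_add, smul_eq_mul] at ht
    linarith
  rw [key, c1, c2, c3, c4]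
  linarith

/-- `|N N|_HS² ≤ |N|_HS²` for a contraction `N` -/
theorem hs_mul_le {N X : Matrix ι ι ℝ}
    (h : ∀ x : ι → ℝ, (N *ᵥ x) ⬝ᵥ (N *ᵥ x) ≤ x ⬝ᵥ x) : hs (N * X) ≤ hs X := by
  rw [hs_col (N * X), hs_col X]
  refine sum_le_sum fun c _ => ?_
  have := h (X *ᵥ Pi.single c 1)
  rwa [mulVec_mulVec] at this

/-- `|X x|² ≤ |X|_HS² |x|²` -/
theorem op_le_hs (X : Matrix ι ι ℝ) (x : ι → ℝ) :
    (X *ᵥ x) ⬝ᵥ (X *ᵥ x) ≤ hs X * (x ⬝ᵥ x) := by
  rw [hs, sum_mul]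
  simp only [dotProduct, mulVec]
  refine sum_le_sum fun i _ => ?_
  have := sum_mul_sq_le_sq_mul_sq univ (fun j => X i j) x
  have e : ∑ j, x j ^ 2 = ∑ j, x j * x j := sum_congr rfl fun j _ => by ring
  rw [e] at this
  nlinarith [this]

/-- `|R x|² ≤ κ² |x|²` if `tr R⁴ ≤ κ⁴` -/
theorem op_le_tr4 {R : Matrix ι ι ℝ} (hR : Rᵀ = R) {κ : ℝ} (h : tr4 R ≤ κ ^ 4)
    (x : ι → ℝ) : (R *ᵥ x) ⬝ᵥ (R *ᵥ x) ≤ κ ^ 2 * (x ⬝ᵥ x) := by
  have h1 := op_le_hs (R * R) x
  have h2 := H186.dot_self_nonneg x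
  have h3 : ((R * R) *ᵥ x) ⬝ᵥ ((R * R) *ᵥ x) ≤ κ ^ 4 * (x ⬝ᵥ x) :=
    h1.trans (mul_le_mul_of_nonneg_right h h2)
  have h4 : (R *ᵥ x) ⬝ᵥ (R *ᵥ x) = x ⬝ᵥ ((R * R) *ᵥ x) := by
    rw [← mulVec_mulVec, dotProduct_mulVec x R, ← mulVec_transpose, hR]
  have h5 := H186.dot_sq_le x ((R * R) *ᵥ x)
  have h6 := H186.dot_self_nonneg (R *ᵥ x)
  rw [← h4] at h5
  have h7 : ((R *ᵥ x) ⬝ᵥ (R *ᵥ x)) ^ 2 ≤ (κ ^ 2 * (x ⬝ᵥ x)) ^ 2 := by
    refine h5.trans ((mul_le_mul_of_nonneg_left h3 h2).trans (le_of_eq ?_))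
    ring
  exact le_of_sq_le_sq h7 (by positivity)

/-! ### the matrix of the flow -/

/-- `M = √l K⁻¹ dK K⁻¹` -/
noncomputable def Mx (l : ℝ) (K Kp Km : Matrix ι ι ℝ) : Matrix ι ι ℝ :=
  √l • (K⁻¹ * ((1 / 2 : ℝ) • (Kp - Km)) * K⁻¹)

theorem Mx_mulVec (l : ℝ) (K Kp Km : Matrix ι ι ℝ) (x : ι → ℝ) :
    Mx l K Kp Km *ᵥ x = H186.xi l K Kp Km x := by
  rw [Mx, smul_mulVec, ← mulVec_mulVec, ← mulVec_mulVec]
  rfl

theorem Mx_symm {l : ℝ} {K Kp Km : Matrix ι ι ℝ} (hK : K.PosDef) (hp : Kp.PosDef)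
    (hm : Km.PosDef) : (Mx l K Kp Km)ᵀ = Mx l K Kp Km := by
  have h1 := tr_symm hK.inv.isHermitian
  have h2 := tr_symm hp.isHermitian
  have h3 := tr_symm hm.isHermitian
  rw [Mx, transpose_smul, transpose_mul, transpose_mul, transpose_smul, transpose_sub, h1, h2, h3,
    Matrix.mul_assoc]

theorem form_two {P : Matrix ι ι ℝ} (hP : P.PosSemidef) (z y : ι → ℝ) :
    2 * (z ⬝ᵥ P *ᵥ y) ≤ z ⬝ᵥ P *ᵥ z + y ⬝ᵥ P *ᵥ y := by
  have h := H186.form_nonneg hP (z - y)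
  have e := H186.form_comm hP.isHermitian z y
  rw [mulVec_sub, dotProduct_sub, sub_dotProduct, sub_dotProduct] at h
  linarith

theorem form_two' {P : Matrix ι ι ℝ} (hP : P.PosSemidef) (z y : ι → ℝ) :
    -(2 * (z ⬝ᵥ P *ᵥ y)) ≤ z ⬝ᵥ P *ᵥ z + y ⬝ᵥ P *ᵥ y := by
  have h := H186.form_nonneg hP (z + y)
  have e := H186.form_comm hP.isHermitian z y
  rw [mulVec_add, dotProduct_add, add_dotProduct, add_dotProduct] at h
  linarith

/-- **`M` is a contraction** -/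
theorem Mx_op {l : ℝ} {G D K Kp Km : Matrix ι ι ℝ} (h : H186.Nd l G D K Kp Km) (x : ι → ℝ) :
    (Mx l K Kp Km *ᵥ x) ⬝ᵥ (Mx l K Kp Km *ᵥ x) ≤ x ⬝ᵥ x := by
  rw [Mx_mulVec]
  have hs : 0 < √l := Real.sqrt_pos.2 h.lpos
  set y := K⁻¹ *ᵥ x with hy
  set w := ((1 / 2 : ℝ) • (Kp - Km)) *ᵥ y with hw
  set z := K⁻¹ *ᵥ w with hz
  have e : H186.xi l K Kp Km x = √l • z := rfl
  have h1 := inv_sq_le h.lpos h.G0 h.K0 h.h0 w
  rw [← hz, ← e] at h1
  -- `⟪w, K⁻¹ w⟫ = ⟪z, K z⟫ ≤ ⟪y, K y⟫`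
  have ez : K *ᵥ z = w := H186.inv_mulVec h.K0 w
  have ey : K *ᵥ y = x := H186.inv_mulVec h.K0 x
  have h2 : z ⬝ᵥ K *ᵥ z = (1 / 2) * (z ⬝ᵥ Kp *ᵥ y - z ⬝ᵥ Km *ᵥ y) := by
    rw [ez, hw, H186.form_half_sub]
  have h3 := h.half_le z
  have h4 := h.half_le y
  rw [H186.form_half_add] at h3 h4
  have h5 := form_two h.Kp0.posSemidef z y
  have h6 := form_two' h.Km0.posSemidef z y
  have h7 : w ⬝ᵥ K⁻¹ *ᵥ w ≤ x ⬝ᵥ y := by
    have e1 : w ⬝ᵥ K⁻¹ *ᵥ w = z ⬝ᵥ K *ᵥ z := by rw [ez, ← hz, dotProduct_comm]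
    have e2 : x ⬝ᵥ y = y ⬝ᵥ K *ᵥ y := by rw [ey, dotProduct_comm]
    rw [e1, e2]
    linarith
  have h8 := H186.inv_form_le h.K0 h.G0 h.lpos h.h0 x
  rw [← hy] at h8
  have h9 : √l * (x ⬝ᵥ y) ≤ x ⬝ᵥ x := by
    have := mul_le_mul_of_nonneg_left h8 hs.le
    rwa [mul_div_cancel₀ _ hs.ne'] at this
  have h10 : √l * (w ⬝ᵥ z) ≤ √l * (x ⬝ᵥ y) := mul_le_mul_of_nonneg_left h7 hs.le
  linarith

/-- `|M|_HS² ≤ (√l)⁻¹ SUM_c ⟪M e_c, K M e_c⟫` -/
theorem hs_Mx_le {l : ℝ} {G K : Matrix ι ι ℝ} (hl : 0 < l) (hG : G.PosSemidef) (hK : K.PosDef)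
    (h : K * K = l • (1 : Matrix ι ι ℝ) + G) (X : Matrix ι ι ℝ) :
    √l * hs X ≤ ∑ c, (X *ᵥ Pi.single c 1) ⬝ᵥ K *ᵥ (X *ᵥ Pi.single c 1) := by
  rw [hs_col, mul_sum]
  exact sum_le_sum fun c _ => H186.sqrt_le_form hK.posSemidef hG hl.le h _

theorem tsum_sum {κ : Type*} (s : Finset κ) (f : κ → ℕ → ℤ → ℝ) : ∀ k m,
    H420.tsum (fun j i => ∑ c ∈ s, f c j i) k m = ∑ c ∈ s, H420.tsum (f c) k m := by
  intro k
  induction k with
  | zero => intro m; simp [H420.tsum]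
  | succ k ih =>
    intro m
    simp only [H420.tsum, ih, mul_add, mul_sum, sum_add_distrib]

/-- the matrices of the tree -/
noncomputable def MT (l : ℝ) (K : ℕ → ℤ → Matrix ι ι ℝ) (j : ℕ) (i : ℤ) : Matrix ι ι ℝ :=
  Mx l (K j i) (K (j - 1) (2 * i)) (K (j - 1) (2 * i + 1))

theorem sum_form_single (G : Matrix ι ι ℝ) :
    ∑ c, (Pi.single c (1 : ℝ) : ι → ℝ) ⬝ᵥ G *ᵥ Pi.single c 1 = G.trace := by
  simp only [trace, diag_apply, mulVec_single_one, single_one_dotProduct, col_apply]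

/-- **the mass of the matrices of the flow**: `SUM |M|_HS² ≤ tr G_top / (2 l)` -/
theorem Mx_tree {l : ℝ} {n : ℕ} {G K : ℕ → ℤ → Matrix ι ι ℝ} (h : Tr l n G K)
    {k : ℕ} (hk : k ≤ n) (m : ℤ) :
    H420.tsum (fun j i => hs (MT l K j i)) k m ≤ (G k m).trace / (2 * l) := by
  have hs' : 0 < √l := Real.sqrt_pos.2 h.l_pos
  have h1 : √l * H420.tsum (fun j i => hs (MT l K j i)) k m ≤ (2 * √l)⁻¹ * (G k m).trace := by
    rw [← tsum_mul, ← sum_form_single, mul_sum]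
    have h2 : H420.tsum (fun j i => √l * hs (MT l K j i)) k m ≤
        H420.tsum (fun j i => ∑ c, xiT l K (Pi.single c 1) j i ⬝ᵥ K j i *ᵥ
          xiT l K (Pi.single c 1) j i) k m := by
      refine tsum_mono (n := n) (fun j _ i => ?_) k hk m
      have h3 := hs_Mx_le h.l_pos (h.psG _ _) (h.pdK _ _) (h.sq (j + 1) i) (MT l K (j + 1) i)
      refine h3.trans (le_of_eq (sum_congr rfl fun c _ => ?_))
      rw [MT, Mx_mulVec]
      rfl
    refine h2.trans ?_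
    rw [tsum_sum]
    exact sum_le_sum fun c _ => xi_tree h (Pi.single c 1) hk m
  have hll : √l * √l = l := Real.mul_self_sqrt h.l_pos.le
  have h4 : √l * ((G k m).trace / (2 * l)) = (2 * √l)⁻¹ * (G k m).trace := by
    clear h1
    have : l = √l * √l := hll.symm
    generalize √l = r at *
    subst this
    field_simp
  rw [← h4] at h1
  exact le_of_mul_le_mul_left h1 hs'

/-! ### the matrix path -/

/-- the matrix path on the tree: the children of `(k + 1, m)` carry `R ± N`. -/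
structure MvR (n : ℕ) (R N : ℕ → ℤ → Matrix ι ι ℝ) : Prop where
  left : ∀ k < n, ∀ m, R k (2 * m) = R (k + 1) m + N (k + 1) m
  right : ∀ k < n, ∀ m, R k (2 * m + 1) = R (k + 1) m - N (k + 1) m

theorem MvR.mv {n : ℕ} {R N : ℕ → ℤ → Matrix ι ι ℝ} (h : MvR n R N) (v : ι → ℝ) :
    Mv n (fun k m => R k m *ᵥ v) (fun k m => N k m *ᵥ v) where
  left k hk m := by rw [h.left k hk m, add_mulVec]
  right k hk m := by rw [h.right k hk m, sub_mulVec]

/-- **the moving lemma for the matrix path** -/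
theorem moveR_tree {l : ℝ} {n : ℕ} {G K : ℕ → ℤ → Matrix ι ι ℝ} (h : Tr l n G K)
    {R N : ℕ → ℤ → Matrix ι ι ℝ} (hR : MvR n R N) {k : ℕ} (hk : k ≤ n) (m : ℤ) :
    H420.tsum (fun j i => hs (MT l K j i * R j i)) k m ≤
      2 * hs (R k m) + 4 * H420.tsum (fun j i => hs (N j i)) k m := by
  have e1 : (fun j i => hs (MT l K j i * R j i)) = fun j i => ∑ c,
      H186.xi l (K j i) (K (j - 1) (2 * i)) (K (j - 1) (2 * i + 1)) (R j i *ᵥ Pi.single c 1) ⬝ᵥ
      H186.xi l (K j i) (K (j - 1) (2 * i)) (K (j - 1) (2 * i + 1)) (R j i *ᵥ Pi.single c 1) := by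
    funext j i
    rw [hs_col]
    refine sum_congr rfl fun c _ => ?_
    rw [← Mx_mulVec, mulVec_mulVec]
    rfl
  have e2 : (fun j i => hs (N j i)) = fun j i => ∑ c,
      (N j i *ᵥ Pi.single c 1) ⬝ᵥ (N j i *ᵥ Pi.single c 1) := by
    funext j i
    exact hs_col _
  rw [e1, e2, tsum_sum, tsum_sum, hs_col, mul_sum, mul_sum, ← sum_add_distrib]
  exact sum_le_sum fun c _ => move_tree' h (hR.mv (Pi.single c 1)) hk m

/-- **the fourth moment on the tree**, `N` symmetric contractions; the sum `SUM |N R|_HS²` is kept,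
so that every form of the moving lemma may be used. -/
theorem tr4_tree_aux {n : ℕ} {R N : ℕ → ℤ → Matrix ι ι ℝ} (hR : MvR n R N)
    (hRs : ∀ j i, (R j i)ᵀ = R j i) (hNs : ∀ j i, (N j i)ᵀ = N j i)
    (hN1 : ∀ j i, ∀ x : ι → ℝ, (N j i *ᵥ x) ⬝ᵥ (N j i *ᵥ x) ≤ x ⬝ᵥ x)
    {k : ℕ} (hk : k ≤ n) (m : ℤ) :
    tmean (fun i => tr4 (R 0 i)) k m ≤ tr4 (R k m) +
      6 * H420.tsum (fun j i => hs (N j i * R j i)) k m + H420.tsum (fun j i => hs (N j i)) k m := by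
  have key : ∀ k ≤ n, ∀ m, tmean (fun i => tr4 (R 0 i)) k m - tr4 (R k m) ≤
      H420.tsum (fun j i => 6 * hs (N j i * R j i) + hs (N j i)) k m := by
    intro k
    induction k with
    | zero => intro _ m; simp [H420.tsum, tmean]
    | succ k ih =>
      intro hk m
      have h1 := ih (by omega) (2 * m)
      have h2 := ih (by omega) (2 * m + 1)
      have h3 := tr4_step (hRs (k + 1) m) (hNs (k + 1) m)
      rw [← hR.left k (by omega) m, ← hR.right k (by omega) m] at h3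
      have h4 : tr4 (N (k + 1) m) ≤ hs (N (k + 1) m) := hs_mul_le (hN1 _ _)
      simp only [H420.tsum, tmean]
      linarith
  have h1 := key k hk m
  rw [tsum_add, tsum_mul] at h1
  linarith

/-- the multiples `N = θ M`, `θ ∈ [-1, 1]` -/
theorem theta_op {l : ℝ} {G D K Kp Km : Matrix ι ι ℝ} (h : H186.Nd l G D K Kp Km) {θ : ℝ}
    (hθ : θ ^ 2 ≤ 1) (x : ι → ℝ) :
    ((θ • Mx l K Kp Km) *ᵥ x) ⬝ᵥ ((θ • Mx l K Kp Km) *ᵥ x) ≤ x ⬝ᵥ x := by
  rw [smul_mulVec, smul_dotProduct, dotProduct_smul, smul_eq_mul, smul_eq_mul, ← mul_assoc,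
    ← pow_two]
  have h1 := Mx_op h x
  have h2 := H186.dot_self_nonneg (Mx l K Kp Km *ᵥ x)
  nlinarith

/-- **[T3], the fourth moment of the moving matrix**: `R (child) = R (parent) ± θ M`, `|θ| ≤ 1`:
`mean tr R_END⁴ ≤ tr R_top⁴ + 12 |R_top|_HS² + 25 tr G_top / (2 l)`. -/
theorem tr4_tree {l : ℝ} {n : ℕ} {G K : ℕ → ℤ → Matrix ι ι ℝ} (h : Tr l n G K)
    {R : ℕ → ℤ → Matrix ι ι ℝ} {θ : ℕ → ℤ → ℝ} (hθ : ∀ j i, θ j i ^ 2 ≤ 1)
    (hR : MvR n R (fun j i => θ j i • MT l K j i)) (hRs : ∀ j i, (R j i)ᵀ = R j i)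
    {k : ℕ} (hk : k ≤ n) (m : ℤ) :
    tmean (fun i => tr4 (R 0 i)) k m ≤ tr4 (R k m) + 12 * hs (R k m) +
      25 * ((G k m).trace / (2 * l)) := by
  have key : ∀ k ≤ n, ∀ m, tmean (fun i => tr4 (R 0 i)) k m - tr4 (R k m) ≤
      H420.tsum (fun j i => 6 * hs (MT l K j i * R j i) + hs (MT l K j i)) k m := by
    intro k
    induction k with
    | zero => intro _ m; simp [H420.tsum, tmean]
    | succ k ih =>
      intro hk m
      have h1 := ih (by omega) (2 * m)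
      have h2 := ih (by omega) (2 * m + 1)
      have hnd := nd' h (show k < n by omega) m
      have hMs : (MT l K (k + 1) m)ᵀ = MT l K (k + 1) m :=
        Mx_symm (h.pdK _ _) (h.pdK _ _) (h.pdK _ _)
      have h3 := tr4_step (N := θ (k + 1) m • MT l K (k + 1) m) (hRs (k + 1) m)
        (by rw [transpose_smul, hMs])
      rw [← hR.left k (by omega) m, ← hR.right k (by omega) m, Matrix.smul_mul, hs_smul] at h3
      have h4 : tr4 (θ (k + 1) m • MT l K (k + 1) m) ≤ hs (θ (k + 1) m • MT l K (k + 1) m) :=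
        hs_mul_le (theta_op hnd (hθ _ _))
      rw [hs_smul] at h4
      have h5 := hs_nonneg (MT l K (k + 1) m)
      have h6 := hs_nonneg (MT l K (k + 1) m * R (k + 1) m)
      have h7 := hθ (k + 1) m
      simp only [H420.tsum, tmean]
      nlinarith
  have h1 := key k hk m
  rw [tsum_add, tsum_mul] at h1
  have h2 := moveR_tree h hR hk m
  have h3 : H420.tsum (fun j i => hs (θ j i • MT l K j i)) k m ≤
      H420.tsum (fun j i => hs (MT l K j i)) k m := by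
    refine tsum_mono (n := n) (fun j _ i => ?_) k hk m
    rw [hs_smul]
    have h5 := hs_nonneg (MT l K (j + 1) i)
    have h7 := hθ (j + 1) i
    nlinarith
  have h4 := Mx_tree h hk m
  linarith

/-! ### the stopped path -/

/-- the stopped path: the signs `θ` are used as long as `tr R⁴ ≤ κ⁴`. -/
structure Cap (l κ : ℝ) (n : ℕ) (K : ℕ → ℤ → Matrix ι ι ℝ) (θ : ℕ → ℤ → ℝ)
    (R : ℕ → ℤ → Matrix ι ι ℝ) : Prop where
  symm : ∀ j i, (R j i)ᵀ = R j i
  live : ∀ k < n, ∀ m, tr4 (R (k + 1) m) ≤ κ ^ 4 →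
    R k (2 * m) = R (k + 1) m + θ (k + 1) m • MT l K (k + 1) m ∧
      R k (2 * m + 1) = R (k + 1) m - θ (k + 1) m • MT l K (k + 1) m
  dead : ∀ k < n, ∀ m, κ ^ 4 < tr4 (R (k + 1) m) →
    R k (2 * m) = R (k + 1) m ∧ R k (2 * m + 1) = R (k + 1) m

namespace Cap

variable {l κ : ℝ} {n : ℕ} {G K : ℕ → ℤ → Matrix ι ι ℝ} {θ : ℕ → ℤ → ℝ}
  {R : ℕ → ℤ → Matrix ι ι ℝ}

/-- the effective signs -/
noncomputable def sg (κ : ℝ) (θ : ℕ → ℤ → ℝ) (R : ℕ → ℤ → Matrix ι ι ℝ) (j : ℕ) (i : ℤ) : ℝ :=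
  if tr4 (R j i) ≤ κ ^ 4 then θ j i else 0

theorem sg_sq (hθ : ∀ j i, θ j i ^ 2 ≤ 1) (j : ℕ) (i : ℤ) : sg κ θ R j i ^ 2 ≤ 1 := by
  unfold sg
  split_ifs
  · exact hθ j i
  · norm_num

theorem mvR (h : Cap l κ n K θ R) : MvR n R (fun j i => sg κ θ R j i • MT l K j i) where
  left k hk m := by
    by_cases hc : tr4 (R (k + 1) m) ≤ κ ^ 4
    · simp only [sg, if_pos hc]; exact (h.live k hk m hc).1
    · simp only [sg, if_neg hc, zero_smul, add_zero]; exact (h.dead k hk m (not_le.1 hc)).1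
  right k hk m := by
    by_cases hc : tr4 (R (k + 1) m) ≤ κ ^ 4
    · simp only [sg, if_pos hc]; exact (h.live k hk m hc).2
    · simp only [sg, if_neg hc, zero_smul, sub_zero]; exact (h.dead k hk m (not_le.1 hc)).2

/-- the indicator of the dead cells -/
noncomputable def dd (κ : ℝ) (R : ℕ → ℤ → Matrix ι ι ℝ) (j : ℕ) (i : ℤ) : ℝ :=
  if κ ^ 4 < tr4 (R j i) then 1 else 0

/-- **the dead leaves**: `κ⁴ mean 1_dead ≤ tr R_top⁴ + 12 |R_top|_HS² + 25 tr G_top / (2 l)`. -/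
theorem dead_le (hK : Tr l n G K) (hθ : ∀ j i, θ j i ^ 2 ≤ 1) (h : Cap l κ n K θ R)
    {k : ℕ} (hk : k ≤ n) (m : ℤ) :
    κ ^ 4 * tmean (fun i => dd κ R 0 i) k m ≤ tr4 (R k m) + 12 * hs (R k m) +
      25 * ((G k m).trace / (2 * l)) := by
  refine le_trans ?_ (tr4_tree hK (sg_sq hθ) h.mvR h.symm hk m)
  rw [← tmean_mul]
  refine tmean_mono (fun i => ?_) k m
  unfold dd
  split_ifs with hc
  · linarith
  · rw [mul_zero]; exact tr4_nonneg _

/-- a dead cell has dead children -/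
theorem dd_child (h : Cap l κ n K θ R) {k : ℕ} (hk : k < n) (m : ℤ)
    (hd : κ ^ 4 < tr4 (R (k + 1) m)) :
    κ ^ 4 < tr4 (R k (2 * m)) ∧ κ ^ 4 < tr4 (R k (2 * m + 1)) := by
  have h1 := h.dead k hk m hd
  rw [h1.1, h1.2]
  exact ⟨hd, hd⟩

/-- below a dead cell all the leaves are dead -/
theorem dd_below (h : Cap l κ n K θ R) : ∀ k ≤ n, ∀ m, κ ^ 4 < tr4 (R k m) →
    tmean (fun i => dd κ R 0 i) k m = 1 := by
  intro k
  induction k with
  | zero => intro _ m hd; simp [tmean, dd, hd]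
  | succ k ih =>
    intro hk m hd
    have h1 := h.dd_child (by omega) m hd
    simp only [tmean, ih (by omega) _ h1.1, ih (by omega) _ h1.2]
    norm_num

/-- **the cap**: `|R_N x| ≤ (κ + 1) |x|` at every cell. -/
theorem op_le (hK : Tr l n G K) (hκ : 0 ≤ κ) (hθ : ∀ j i, θ j i ^ 2 ≤ 1) (h : Cap l κ n K θ R)
    (htop : ∀ m (x : ι → ℝ), (R n m *ᵥ x) ⬝ᵥ (R n m *ᵥ x) ≤ (κ + 1) ^ 2 * (x ⬝ᵥ x)) :
    ∀ k ≤ n, ∀ m (x : ι → ℝ), (R k m *ᵥ x) ⬝ᵥ (R k m *ᵥ x) ≤ (κ + 1) ^ 2 * (x ⬝ᵥ x) := by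
  have step : ∀ k < n, ∀ (m : ℤ) (x : ι → ℝ),
      (R (k + 1) m *ᵥ x) ⬝ᵥ (R (k + 1) m *ᵥ x) ≤ (κ + 1) ^ 2 * (x ⬝ᵥ x) →
      (R k (2 * m) *ᵥ x) ⬝ᵥ (R k (2 * m) *ᵥ x) ≤ (κ + 1) ^ 2 * (x ⬝ᵥ x) ∧
      (R k (2 * m + 1) *ᵥ x) ⬝ᵥ (R k (2 * m + 1) *ᵥ x) ≤ (κ + 1) ^ 2 * (x ⬝ᵥ x) := by
    intro k hk m x hx
    by_cases hc : tr4 (R (k + 1) m) ≤ κ ^ 4
    · have h1 := op_le_tr4 (h.symm (k + 1) m) hc x
      have h2 := theta_op (nd' hK hk m) (hθ (k + 1) m) x
      have e := h.live k hk m hc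
      set a := R (k + 1) m *ᵥ x with ha
      set b := (θ (k + 1) m • MT l K (k + 1) m) *ᵥ x with hb
      have h2' : b ⬝ᵥ b ≤ x ⬝ᵥ x := h2
      have h3 := H186.dot_sq_le a b
      have hxx := H186.dot_self_nonneg x
      have haa := H186.dot_self_nonneg a
      have hbb := H186.dot_self_nonneg b
      have h4 : (a ⬝ᵥ b) ^ 2 ≤ (κ * (x ⬝ᵥ x)) ^ 2 := by
        refine h3.trans ?_
        have := mul_le_mul h1 h2' hbb (by positivity)
        refine this.trans (le_of_eq (by ring))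
      have h5 := abs_le_of_sq_le_sq' h4 (by positivity)
      rw [e.1, e.2, add_mulVec, sub_mulVec]
      rw [← ha, ← hb]
      simp only [add_dotProduct, dotProduct_add, sub_dotProduct, dotProduct_sub]
      rw [dotProduct_comm b a]
      constructor <;> nlinarith [h5.1, h5.2]
    · have e := h.dead k hk m (not_le.1 hc)
      rw [e.1, e.2]
      exact ⟨hx, hx⟩
  -- descend from the scale `n`
  have key : ∀ d k, k + d = n → ∀ m (x : ι → ℝ),
      (R k m *ᵥ x) ⬝ᵥ (R k m *ᵥ x) ≤ (κ + 1) ^ 2 * (x ⬝ᵥ x) := by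
    intro d
    induction d with
    | zero =>
      intro k hk m x
      have e : k = n := by omega
      rw [e]
      exact htop m x
    | succ d ih =>
      intro k hk m x
      have h1 := ih (k + 1) (by omega) (m / 2) x
      have h2 := step k (by omega) (m / 2) x h1
      rcases Int.even_or_odd' m with ⟨c, rfl | rfl⟩
      · have e : 2 * c / 2 = c := by omega
        rw [e] at h2
        exact h2.1
      · have e : (2 * c + 1) / 2 = c := by omega
        rw [e] at h2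
        exact h2.2
  intro k hk m x
  exact key (n - k) k (by omega) m x

/-- the energy of the flow below a cell is at most `|v|²` (whatever `G` is). -/
theorem flow_le (hK : Tr l n G K) (v : ι → ℝ) {k : ℕ} (hk : k ≤ n) (m : ℤ) :
    H420.tsum (fun j i => (MT l K j i *ᵥ v) ⬝ᵥ (MT l K j i *ᵥ v)) k m ≤ v ⬝ᵥ v := by
  have hs' : 0 < √l := Real.sqrt_pos.2 hK.l_pos
  have key := H420.tsum_le (f := fun j i => √l * ((MT l K j i *ᵥ v) ⬝ᵥ (MT l K j i *ᵥ v)))
    (F := fun j i => -(l * (v ⬝ᵥ (K j i)⁻¹ *ᵥ v))) (b := -(√l * (v ⬝ᵥ v))) (n := n)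
    (fun j hj i => ?_) (fun i => flow_bot hK.l_pos (hK.psG 0 i) (hK.pdK 0 i) (hK.sq 0 i) v) k hk m
  · rw [tsum_mul] at key
    have h1 := H186.form_nonneg (hK.pdK k m).inv.posSemidef v
    have h2 := mul_nonneg hK.l_pos.le h1
    have h3 : √l * H420.tsum (fun j i => (MT l K j i *ᵥ v) ⬝ᵥ (MT l K j i *ᵥ v)) k m ≤
        √l * (v ⬝ᵥ v) := by linarith
    exact le_of_mul_le_mul_left h3 hs'
  · have h1 := (nd' hK hj i).xi_le v
    have h2 := H186.sqrt_le_form (hK.pdK (j + 1) i).posSemidef (hK.psG _ _) hK.l_pos.le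
      (hK.sq (j + 1) i) (MT l K (j + 1) i *ᵥ v)
    have e : MT l K (j + 1) i *ᵥ v =
        H186.xi l (K (j + 1) i) (K j (2 * i)) (K j (2 * i + 1)) v := Mx_mulVec _ _ _ _ _
    rw [e] at h2 ⊢
    linarith

/-- the nonnegative tree sum of a nonnegative function. -/
theorem tsum_nonneg {f : ℕ → ℤ → ℝ} (hf : ∀ j i, 0 ≤ f j i) : ∀ k m, 0 ≤ H420.tsum f k m := by
  intro k
  induction k with
  | zero => intro m; simp [H420.tsum]
  | succ k ih =>
    intro m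
    have h1 := ih (2 * m)
    have h2 := ih (2 * m + 1)
    have h3 := hf (k + 1) m
    simp only [H420.tsum]
    linarith

/-- **the energy of the flow in the dead cells** is at most `|v|²` times the mean of the dead
leaves. -/
theorem dead_energy (hK : Tr l n G K) (h : Cap l κ n K θ R) (v : ι → ℝ) :
    ∀ k ≤ n, ∀ m, H420.tsum (fun j i => dd κ R j i *
      ((MT l K j i *ᵥ v) ⬝ᵥ (MT l K j i *ᵥ v))) k m ≤
        (v ⬝ᵥ v) * tmean (fun i => dd κ R 0 i) k m := by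
  intro k
  induction k with
  | zero =>
    intro _ m
    have h1 := H186.dot_self_nonneg v
    simp only [H420.tsum, tmean, dd]
    split_ifs
    · linarith
    · linarith
  | succ k ih =>
    intro hk m
    by_cases hd : κ ^ 4 < tr4 (R (k + 1) m)
    · rw [h.dd_below (k + 1) hk m hd, mul_one]
      refine le_trans ?_ (flow_le hK v hk m)
      refine tsum_mono (n := n) (fun j _ i => ?_) (k + 1) hk m
      have h1 := H186.dot_self_nonneg (MT l K (j + 1) i *ᵥ v)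
      unfold dd
      split_ifs
      · linarith
      · linarith
    · have h1 := ih (by omega) (2 * m)
      have h2 := ih (by omega) (2 * m + 1)
      have e : dd κ R (k + 1) m = 0 := by simp only [dd, if_neg hd]
      simp only [H420.tsum, tmean, e, zero_mul, zero_add]
      linarith

end Cap

/-! ### existence of the stopped path -/

/-- the stopped path, from the top scale `n` down: depth `d` = scale `n - d`. -/
noncomputable def path (l κ : ℝ) (n : ℕ) (K : ℕ → ℤ → Matrix ι ι ℝ) (θ : ℕ → ℤ → ℝ) :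
    ℕ → ℤ → Matrix ι ι ℝ
  | 0, _ => 0
  | (d + 1), i =>
    path l κ n K θ d (i / 2) +
      (if tr4 (path l κ n K θ d (i / 2)) ≤ κ ^ 4 then
        ((if i % 2 = 0 then 1 else -1) * θ (n - d) (i / 2)) • MT l K (n - d) (i / 2) else 0)

theorem path_symm {l κ : ℝ} {n : ℕ} {G K : ℕ → ℤ → Matrix ι ι ℝ} (hK : Tr l n G K)
    (θ : ℕ → ℤ → ℝ) : ∀ d i, (path l κ n K θ d i)ᵀ = path l κ n K θ d i := by
  intro d
  induction d with
  | zero => intro i; exact transpose_zero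
  | succ d ih =>
    intro i
    have hM : (MT l K (n - d) (i / 2))ᵀ = MT l K (n - d) (i / 2) :=
      Mx_symm (hK.pdK _ _) (hK.pdK _ _) (hK.pdK _ _)
    rw [path, transpose_add, ih]
    split_ifs
    · rw [transpose_smul, hM]
    · rw [transpose_smul, hM]
    · rw [transpose_zero]

/-- **[T3], the cap of the moving matrix.**  For every choice of `θ ∈ [-1, 1]` there is a path `R`,
`R = 0` at the scale `n`, with `R (child) = R (parent) ± θ M` as long as `tr R⁴ ≤ κ⁴`, frozen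
afterwards; `|R x| ≤ (κ + 1) |x|` at every cell, and the mean of the dead leaves below a cell of the
scale `n` is at most `25 tr G / (2 l κ⁴)`. -/
theorem exists_cap {l : ℝ} {n : ℕ} {G K : ℕ → ℤ → Matrix ι ι ℝ} (hK : Tr l n G K) {κ : ℝ}
    (hκ : 0 < κ) (θ : ℕ → ℤ → ℝ) (hθ : ∀ j i, θ j i ^ 2 ≤ 1) :
    ∃ R : ℕ → ℤ → Matrix ι ι ℝ, (∀ m, R n m = 0) ∧ Cap l κ n K θ R ∧
      (∀ k ≤ n, ∀ m (x : ι → ℝ), (R k m *ᵥ x) ⬝ᵥ (R k m *ᵥ x) ≤ (κ + 1) ^ 2 * (x ⬝ᵥ x)) ∧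
      ∀ m, tmean (fun i => Cap.dd κ R 0 i) n m ≤ 25 * (G n m).trace / (2 * l * κ ^ 4) := by
  let R : ℕ → ℤ → Matrix ι ι ℝ := fun k m => path l κ n K θ (n - k) m
  have h0 : ∀ m, R n m = 0 := by intro m; simp [R, path]
  have hC : Cap l κ n K θ R := by
    have e2 : ∀ m : ℤ, 2 * m / 2 = m ∧ (2 * m + 1) / 2 = m ∧ (2 * m) % 2 = 0 ∧
        (2 * m + 1) % 2 = 1 := fun m => by omega
    refine ⟨fun j i => path_symm hK θ _ _, fun k hk m hc => ?_, fun k hk m hc => ?_⟩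
    · have e1 : n - k = (n - (k + 1)) + 1 := by omega
      have e3 : n - (n - (k + 1)) = k + 1 := by omega
      obtain ⟨a1, a2, a3, a4⟩ := e2 m
      have hc' : tr4 (path l κ n K θ (n - (k + 1)) m) ≤ κ ^ 4 := hc
      constructor
      · simp only [R, e1, path, a1, a3, e3, if_pos hc', if_true, one_mul]
      · simp only [R, e1, path, a2, a4, e3, if_pos hc']
        simp [sub_eq_add_neg]
    · have e1 : n - k = (n - (k + 1)) + 1 := by omega
      obtain ⟨a1, a2, a3, a4⟩ := e2 m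
      have hc' : ¬ tr4 (path l κ n K θ (n - (k + 1)) m) ≤ κ ^ 4 := not_le.2 hc
      constructor
      · simp only [R, e1, path, a1, if_neg hc', add_zero]
      · simp only [R, e1, path, a2, if_neg hc', add_zero]
  refine ⟨R, h0, hC, ?_, fun m => ?_⟩
  · refine hC.op_le hK hκ.le hθ fun m x => ?_
    rw [h0 m, zero_mulVec, zero_dotProduct]
    have := H186.dot_self_nonneg x
    positivity
  · have h1 := hC.dead_le hK hθ le_rfl m
    have e1 : tr4 (R n m) = 0 := by rw [h0 m]; simp [tr4, hs]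
    have e2 : hs (R n m) = 0 := by rw [h0 m]; simp [hs]
    rw [e1, e2] at h1
    have hl := hK.l_pos
    rw [le_div_iff₀ (by positivity)]
    have h2 : 25 * ((G n m).trace / (2 * l)) * (2 * l) = 25 * (G n m).trace := by
      field_simp
    have h3 := mul_le_mul_of_nonneg_right h1 (show (0 : ℝ) ≤ 2 * l by positivity)
    nlinarith [h3, h2]

end Vale.Agent.P141.H970
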