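import Vale.Agent.P141.H690.Cap6

/-!
# P141, line (A), [T4]: the generations of the frozen path

`X k m` any symmetric family on the dyadic tree (children `(k, 2 m)`, `(k, 2 m + 1)` of
`(k + 1, m)`), `M g` the level of generation `g`.  `γ k m` is the generation which moves at the cell,
`R g` the path of generation `g`: `R g (child) = R g (parent) ± 1[γ = g] X`, and `γ` grows by one
at a child where `tr R⁶ > M γ`.

* `Gn` : the structure, `exists_gn`;
* `Gn.zero` : `R g = 0` at the cells with `γ < g`; `Gn.alive` : `tr (R γ)⁶ ≤ M γ` at every cell;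
* `Gn.op_le` : `|R g x| ≤ (κ + 1) |x|` at every cell, `M g = κ⁶`;
* `Gn.prob` : `mean 1[γ ≥ g + 1] ≤ b mean 1[γ ≥ g]` if `Pst6 X (M g) k m 0 ≤ b` from every cell;
* `Gn.energy` : `SUM 1[γ = g] f ≤ E mean 1[γ ≥ g]` if `SUM f ≤ E` from every cell;
* `Gn.count` : `γ ≤ n - k` at the scale `k`;
* `prob_tie`, `energy_tie` : the flow matrices at fixed `x₁, x₃`, real ties.
-/

namespace Vale.Agent.P141.H970

open Matrix Finset
open Vale.Agent.P141.H690 (tr6 tr6_zero Pst6 op_of_tr6 MX flow_stop6)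
open Vale.Agent.P141.H483 (tmean tmean_mono tmean_const tmean_mul)

set_option linter.unusedSectionVars false

variable {ι : Type*} [Fintype ι] [DecidableEq ι]

/-- **The generations.** -/
structure Gn (n : ℕ) (M : ℕ → ℝ) (X : ℕ → ℤ → Matrix ι ι ℝ) (γ : ℕ → ℤ → ℕ)
    (R : ℕ → ℕ → ℤ → Matrix ι ι ℝ) : Prop where
  topR : ∀ g m, R g n m = 0
  topγ : ∀ m, γ n m = 0
  left : ∀ k < n, ∀ m g, R g k (2 * m) =
    R g (k + 1) m + (if γ (k + 1) m = g then X (k + 1) m else 0)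
  right : ∀ k < n, ∀ m g, R g k (2 * m + 1) =
    R g (k + 1) m - (if γ (k + 1) m = g then X (k + 1) m else 0)
  stay : ∀ k < n, ∀ m i, i / 2 = m → tr6 (R (γ (k + 1) m) k i) ≤ M (γ (k + 1) m) →
    γ k i = γ (k + 1) m
  next : ∀ k < n, ∀ m i, i / 2 = m → M (γ (k + 1) m) < tr6 (R (γ (k + 1) m) k i) →
    γ k i = γ (k + 1) m + 1

namespace Gn

variable {n : ℕ} {M : ℕ → ℝ} {X : ℕ → ℤ → Matrix ι ι ℝ} {γ : ℕ → ℤ → ℕ}
  {R : ℕ → ℕ → ℤ → Matrix ι ι ℝ}

theorem two_cases (i : ℤ) : i = 2 * (i / 2) ∨ i = 2 * (i / 2) + 1 := by omega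

/-- the generation of a child is that of the parent or the next one -/
theorem step (h : Gn n M X γ R) {k : ℕ} (hk : k < n) (i : ℤ) :
    γ k i = γ (k + 1) (i / 2) ∨ γ k i = γ (k + 1) (i / 2) + 1 := by
  rcases le_or_gt (tr6 (R (γ (k + 1) (i / 2)) k i)) (M (γ (k + 1) (i / 2))) with hc | hc
  · exact Or.inl (h.stay k hk _ i rfl hc)
  · exact Or.inr (h.next k hk _ i rfl hc)

theorem mono (h : Gn n M X γ R) {k : ℕ} (hk : k < n) (i : ℤ) : γ (k + 1) (i / 2) ≤ γ k i := by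
  rcases h.step hk i with h1 | h1 <;> omega

/-- induction from the top scale down -/
theorem desc {P : ℕ → ℤ → Prop} (top : ∀ m, P n m)
    (st : ∀ k < n, ∀ i, P (k + 1) (i / 2) → P k i) : ∀ k ≤ n, ∀ m, P k m := by
  have key : ∀ d k, k + d = n → ∀ m, P k m := by
    intro d
    induction d with
    | zero =>
      intro k hk m
      have e : k = n := by omega
      rw [e]
      exact top m
    | succ d ih =>
      intro k hk m
      exact st k (by omega) m (ih (k + 1) (by omega) _)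
  intro k hk m
  exact key (n - k) k (by omega) m

/-- **at most one generation per scale** -/
theorem count (h : Gn n M X γ R) : ∀ k ≤ n, ∀ m, γ k m + k ≤ n := by
  refine desc (P := fun k m => γ k m + k ≤ n) (fun m => by rw [h.topγ]; omega) ?_
  intro k hk i ih
  rcases h.step hk i with h1 | h1 <;> omega

/-- **`R g = 0` before the generation `g` starts** -/
theorem zero (h : Gn n M X γ R) (g : ℕ) : ∀ k ≤ n, ∀ m, γ k m < g → R g k m = 0 := by
  refine desc (P := fun k m => γ k m < g → R g k m = 0) (fun m _ => h.topR g m) ?_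
  intro k hk i ih hlt
  have h1 := h.mono hk i
  have h0 := ih (by omega)
  have hne : γ (k + 1) (i / 2) ≠ g := by omega
  rcases two_cases i with e | e
  · rw [e, h.left k hk, if_neg hne, h0, add_zero]
  · rw [e, h.right k hk, if_neg hne, h0, sub_zero]

/-- the start cells of the generation `g`: `R g = 0` at a child of a cell with `γ < g` -/
theorem zero_child (h : Gn n M X γ R) (g : ℕ) {k : ℕ} (hk : k < n) (i : ℤ)
    (hlt : γ (k + 1) (i / 2) < g) : R g k i = 0 := by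
  have h0 := h.zero g (k + 1) (by omega) _ hlt
  have hne : γ (k + 1) (i / 2) ≠ g := by omega
  rcases two_cases i with e | e
  · rw [e, h.left k hk, if_neg hne, h0, add_zero]
  · rw [e, h.right k hk, if_neg hne, h0, sub_zero]

/-- **alive**: `tr R⁶ ≤ M` for the moving generation at every cell -/
theorem alive (h : Gn n M X γ R) (hM : ∀ g, 0 ≤ M g) :
    ∀ k ≤ n, ∀ m, tr6 (R (γ k m) k m) ≤ M (γ k m) := by
  refine desc (P := fun k m => tr6 (R (γ k m) k m) ≤ M (γ k m))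
    (fun m => by rw [h.topR, tr6_zero]; exact hM _) ?_
  intro k hk i _
  rcases le_or_gt (tr6 (R (γ (k + 1) (i / 2)) k i)) (M (γ (k + 1) (i / 2))) with hc | hc
  · rw [h.stay k hk _ i rfl hc]; exact hc
  · have e := h.next k hk _ i rfl hc
    rw [h.zero_child (γ k i) hk i (by omega), tr6_zero]
    exact hM _

/-- symmetric paths -/
theorem symm (h : Gn n M X γ R) (hX : ∀ k m, (X k m)ᵀ = X k m) (g : ℕ) :
    ∀ k ≤ n, ∀ m, (R g k m)ᵀ = R g k m := by
  refine desc (P := fun k m => (R g k m)ᵀ = R g k m)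
    (fun m => by rw [h.topR, transpose_zero]) ?_
  intro k hk i ih
  rcases two_cases i with e | e
  · rw [e, h.left k hk, transpose_add, ih]
    split_ifs
    · rw [hX]
    · rw [transpose_zero]
  · rw [e, h.right k hk, transpose_sub, ih]
    split_ifs
    · rw [hX]
    · rw [transpose_zero]

/-- `|a + b|² ≤ (κ + 1)² |v|²` -/
theorem tri {κ : ℝ} (hκ : 0 ≤ κ) {v a b : ι → ℝ} (ha : a ⬝ᵥ a ≤ κ ^ 2 * (v ⬝ᵥ v))
    (hb : b ⬝ᵥ b ≤ v ⬝ᵥ v) : (a + b) ⬝ᵥ (a + b) ≤ (κ + 1) ^ 2 * (v ⬝ᵥ v) := by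
  have v0 : 0 ≤ v ⬝ᵥ v := H186.dot_self_nonneg v
  have hcs := H186.dot_sq_le a b
  have b0 : 0 ≤ b ⬝ᵥ b := H186.dot_self_nonneg b
  have e : (a + b) ⬝ᵥ (a + b) = a ⬝ᵥ a + 2 * (a ⬝ᵥ b) + b ⬝ᵥ b := by
    simp only [dotProduct_add, add_dotProduct]
    rw [dotProduct_comm b a]
    ring
  have h1 : (a ⬝ᵥ b) ^ 2 ≤ (κ * (v ⬝ᵥ v)) ^ 2 := by
    refine hcs.trans ?_
    calc (a ⬝ᵥ a) * (b ⬝ᵥ b) ≤ (κ ^ 2 * (v ⬝ᵥ v)) * (v ⬝ᵥ v) :=
          mul_le_mul ha hb b0 (by positivity)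
      _ = _ := by ring
  have h2 : a ⬝ᵥ b ≤ κ * (v ⬝ᵥ v) := (abs_le_of_sq_le_sq' h1 (by positivity)).2
  rw [e]
  nlinarith

/-- from `tr R⁶ ≤ κ⁶` to the operator norm -/
theorem op_live {κ : ℝ} {T : Matrix ι ι ℝ} (hT : Tᵀ = T) (hl : tr6 T ≤ κ ^ 6) (v : ι → ℝ) :
    (T *ᵥ v) ⬝ᵥ (T *ᵥ v) ≤ κ ^ 2 * (v ⬝ᵥ v) := by
  have h1 := op_of_tr6 hT v
  have v0 : 0 ≤ v ⬝ᵥ v := H186.dot_self_nonneg v
  have h2 : ((T *ᵥ v) ⬝ᵥ (T *ᵥ v)) ^ 3 ≤ (κ ^ 2 * (v ⬝ᵥ v)) ^ 3 := by
    refine h1.trans ?_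
    have := mul_le_mul_of_nonneg_right hl (pow_nonneg v0 3)
    rw [tr6] at this
    refine this.trans (le_of_eq (by ring))
  exact le_of_pow_le_pow_left₀ (by norm_num) (by positivity) h2

/-- **the cap of every generation at every cell** -/
theorem op_le (h : Gn n M X γ R) (hM : ∀ g, 0 ≤ M g) (hX : ∀ k m, (X k m)ᵀ = X k m)
    (hX1 : ∀ k < n, ∀ m (v : ι → ℝ), (X (k + 1) m *ᵥ v) ⬝ᵥ (X (k + 1) m *ᵥ v) ≤ v ⬝ᵥ v) {κ : ℝ}
    (hκ : 0 ≤ κ) {g : ℕ} (hg : M g = κ ^ 6) (v : ι → ℝ) :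
    ∀ k ≤ n, ∀ m, (R g k m *ᵥ v) ⬝ᵥ (R g k m *ᵥ v) ≤ (κ + 1) ^ 2 * (v ⬝ᵥ v) := by
  have v0 : 0 ≤ v ⬝ᵥ v := H186.dot_self_nonneg v
  refine desc (P := fun k m => (R g k m *ᵥ v) ⬝ᵥ (R g k m *ᵥ v) ≤ (κ + 1) ^ 2 * (v ⬝ᵥ v))
    (fun m => ?_) ?_
  · simp only [h.topR, zero_mulVec, zero_dotProduct]
    positivity
  · intro k hk i ih
    by_cases hc : γ (k + 1) (i / 2) = g
    · have ha := h.alive hM (k + 1) (by omega) (i / 2)
      rw [hc, hg] at ha
      have hp := op_live (h.symm hX g (k + 1) (by omega) (i / 2)) ha v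
      rcases two_cases i with e | e
      · rw [e, h.left k hk, if_pos hc, add_mulVec]
        exact tri hκ hp (hX1 k hk _ v)
      · rw [e, h.right k hk, if_pos hc, sub_mulVec, sub_eq_add_neg]
        refine tri hκ hp ?_
        rw [neg_dotProduct, dotProduct_neg, neg_neg]
        exact hX1 k hk _ v
    · rcases two_cases i with e | e
      · rw [e, h.left k hk, if_neg hc, add_zero]
        exact ih
      · rw [e, h.right k hk, if_neg hc, sub_zero]
        exact ih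

/-! ### The probabilities -/

/-- indicator of `γ ≥ g` -/
noncomputable def ge (γ : ℕ → ℤ → ℕ) (g k : ℕ) (m : ℤ) : ℝ := if g ≤ γ k m then 1 else 0

theorem ge_nonneg (g k : ℕ) (m : ℤ) : 0 ≤ ge γ g k m := by unfold ge; split_ifs <;> norm_num

theorem ge_le_one (g k : ℕ) (m : ℤ) : ge γ g k m ≤ 1 := by unfold ge; split_ifs <;> norm_num

theorem tmean_ge_nonneg (g k : ℕ) (m : ℤ) : 0 ≤ tmean (ge γ g 0) k m := by
  have := tmean_mono (f := fun _ => (0 : ℝ)) (g := ge γ g 0) (fun i => ge_nonneg g 0 i) k m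
  rwa [tmean_const] at this

theorem tmean_ge_le_one (g k : ℕ) (m : ℤ) : tmean (ge γ g 0) k m ≤ 1 := by
  have := tmean_mono (f := ge γ g 0) (g := fun _ => (1 : ℝ)) (fun i => ge_le_one g 0 i) k m
  rwa [tmean_const] at this

/-- below a cell with `γ ≥ g` all the leaves have `γ ≥ g` -/
theorem tmean_ge_eq (h : Gn n M X γ R) (g : ℕ) : ∀ k ≤ n, ∀ m, g ≤ γ k m →
    tmean (ge γ g 0) k m = 1 := by
  intro k
  induction k with
  | zero => intro _ m hm; simp only [tmean, ge, if_pos hm]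
  | succ k ih =>
    intro hk m hm
    have e1 : (2 * m) / 2 = m := by omega
    have e2 : (2 * m + 1) / 2 = m := by omega
    have h1 := h.mono (show k < n by omega) (2 * m)
    have h2 := h.mono (show k < n by omega) (2 * m + 1)
    rw [e1] at h1
    rw [e2] at h2
    rw [tmean, ih (by omega) _ (by omega), ih (by omega) _ (by omega)]
    norm_num

theorem Pst6_nonneg (X : ℕ → ℤ → Matrix ι ι ℝ) (M : ℝ) (k : ℕ) :
    ∀ m R, 0 ≤ Pst6 X M k m R := by
  induction k with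
  | zero => intro m R; rw [Pst6]; split_ifs <;> norm_num
  | succ k ih =>
    intro m R
    rw [Pst6]
    split_ifs
    · norm_num
    · have h1 := ih (2 * m) (R + X (k + 1) m)
      have h2 := ih (2 * m + 1) (R - X (k + 1) m)
      linarith

/-- at a cell where the generation `g` moves -/
theorem next_le (h : Gn n M X γ R) (g : ℕ) : ∀ k ≤ n, ∀ m, γ k m = g →
    tmean (ge γ (g + 1) 0) k m ≤ Pst6 X (M g) k m (R g k m) := by
  intro k
  induction k with
  | zero =>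
    intro _ m hm
    have : ¬ g + 1 ≤ γ 0 m := by omega
    simp only [tmean, ge, if_neg this]
    exact Pst6_nonneg _ _ _ _ _
  | succ k ih =>
    intro hk m hm
    rw [Pst6]
    split_ifs with hs
    · exact tmean_ge_le_one _ _ _
    · have e1 : (2 * m) / 2 = m := by omega
      have e2 : (2 * m + 1) / 2 = m := by omega
      have hkn : k < n := by omega
      -- one child
      have child : ∀ i : ℤ, i / 2 = m → tmean (ge γ (g + 1) 0) k i ≤ Pst6 X (M g) k i (R g k i) := by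
        intro i hi
        rcases le_or_gt (tr6 (R g k i)) (M g) with hc | hc
        · refine ih (by omega) i ?_
          rw [h.stay k hkn m i hi (by rw [hm]; exact hc), hm]
        · refine (tmean_ge_le_one _ _ _).trans (le_of_eq ?_)
          have hc' : M g ≤ (R g k i * (R g k i * (R g k i * (R g k i * (R g k i * R g k i))))).trace :=
            hc.le
          cases k with
          | zero => rw [Pst6, if_pos hc']
          | succ k => rw [Pst6, if_pos hc']
      have c1 := child (2 * m) e1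
      have c2 := child (2 * m + 1) e2
      rw [h.left k hkn m g, if_pos hm] at c1
      rw [h.right k hkn m g, if_pos hm] at c2
      rw [tmean]
      linarith

/-- **the probability of the next generation** -/
theorem prob (h : Gn n M X γ R) (g : ℕ) {b : ℝ} (hb : ∀ k ≤ n, ∀ m, Pst6 X (M g) k m 0 ≤ b) :
    ∀ k ≤ n, ∀ m, γ k m < g →
      tmean (ge γ (g + 1) 0) k m ≤ b * tmean (ge γ g 0) k m := by
  intro k
  induction k with
  | zero =>
    intro _ m hm
    have h1 : ¬ g + 1 ≤ γ 0 m := by omega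
    have h2 : ¬ g ≤ γ 0 m := by omega
    simp only [tmean, ge, if_neg h1, if_neg h2, mul_zero, le_refl]
  | succ k ih =>
    intro hk m hm
    have hkn : k < n := by omega
    have child : ∀ i : ℤ, i / 2 = m →
        tmean (ge γ (g + 1) 0) k i ≤ b * tmean (ge γ g 0) k i := by
      intro i hi
      by_cases hlt : γ k i < g
      · exact ih (by omega) i hlt
      · have h1 := h.step hkn i
        rw [hi] at h1
        have h2 : γ k i = g := by omega
        have h3 := h.next_le g k (by omega) i h2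
        rw [h.zero_child g hkn i (by rw [hi]; exact hm)] at h3
        rw [h.tmean_ge_eq g k (by omega) i h2.ge, mul_one]
        exact h3.trans (hb k (by omega) i)
    have c1 := child (2 * m) (by omega)
    have c2 := child (2 * m + 1) (by omega)
    simp only [tmean]
    linarith

/-- the first generation -/
theorem prob_zero (h : Gn n M X γ R) (m : ℤ) :
    tmean (ge γ 1 0) n m ≤ Pst6 X (M 0) n m 0 := by
  have h1 := h.next_le 0 n le_rfl m (h.topγ m)
  rwa [h.topR] at h1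

/-- the probabilities of all the generations -/
theorem prob_pow (h : Gn n M X γ R) {b : ℕ → ℝ} (hb0 : ∀ g, 0 ≤ b g)
    (hb : ∀ g, ∀ k ≤ n, ∀ m, Pst6 X (M g) k m 0 ≤ b g) (g : ℕ) (m : ℤ) :
    tmean (ge γ g 0) n m ≤ ∏ j ∈ range g, b j := by
  induction g with
  | zero =>
    rw [range_zero, prod_empty]
    exact tmean_ge_le_one _ _ _
  | succ g ih =>
    rw [prod_range_succ]
    rcases Nat.eq_zero_or_pos g with rfl | hg
    · rw [range_zero, prod_empty, one_mul]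
      exact (h.prob_zero m).trans (hb 0 n le_rfl m)
    · have h1 := h.prob g (hb g) n le_rfl m (by rw [h.topγ]; exact hg)
      have h2 := mul_le_mul_of_nonneg_left ih (hb0 g)
      linarith [mul_comm (b g) (∏ j ∈ range g, b j)]

/-! ### The energies -/

/-- **the energy of a generation** -/
theorem energy (h : Gn n M X γ R) (g : ℕ) {f : ℕ → ℤ → ℝ} (hf : ∀ j i, 0 ≤ f j i) {E : ℝ}
    (hE0 : 0 ≤ E) (hE : ∀ k ≤ n, ∀ m, H420.tsum f k m ≤ E) : ∀ k ≤ n, ∀ m,
    H420.tsum (fun j i => (if γ j i = g then 1 else 0) * f j i) k m ≤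
      E * tmean (ge γ g 0) k m := by
  intro k
  induction k with
  | zero =>
    intro _ m
    simp only [H420.tsum]
    exact mul_nonneg hE0 (tmean_ge_nonneg _ _ _)
  | succ k ih =>
    intro hk m
    by_cases hg : g ≤ γ (k + 1) m
    · rw [h.tmean_ge_eq g (k + 1) hk m hg, mul_one]
      refine le_trans ?_ (hE (k + 1) hk m)
      refine H483.tsum_mono (n := n) (fun j _ i => ?_) (k + 1) hk m
      have h1 := hf (j + 1) i
      split_ifs
      · linarith
      · linarith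
    · have h1 := ih (by omega) (2 * m)
      have h2 := ih (by omega) (2 * m + 1)
      have h3 : ¬ γ (k + 1) m = g := by omega
      simp only [H420.tsum, tmean, if_neg h3, zero_mul, zero_add]
      linarith

/-- the generations exhaust every cell -/
theorem sum_gen (h : Gn n M X γ R) {k : ℕ} (hk : k ≤ n) (m : ℤ) :
    ∑ g ∈ range (n + 1), (if γ k m = g then (1 : ℝ) else 0) = 1 := by
  have h1 := h.count k hk m
  rw [sum_ite_eq, if_pos (mem_range.2 (by omega))]

/-- `SUM_g R g` is the full path -/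
theorem sum_R (h : Gn n M X γ R) {k : ℕ} (hk : k < n) (m : ℤ) :
    ∑ g ∈ range (n + 1), R g k (2 * m) = ∑ g ∈ range (n + 1), R g (k + 1) m + X (k + 1) m ∧
    ∑ g ∈ range (n + 1), R g k (2 * m + 1) =
      ∑ g ∈ range (n + 1), R g (k + 1) m - X (k + 1) m := by
  have h1 := h.count (k + 1) (by omega) m
  have e : ∑ g ∈ range (n + 1), (if γ (k + 1) m = g then X (k + 1) m else 0) = X (k + 1) m := by
    rw [sum_ite_eq, if_pos (mem_range.2 (by omega))]
  constructor
  · rw [sum_congr rfl fun g _ => h.left k hk m g, sum_add_distrib, e]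
  · rw [sum_congr rfl fun g _ => h.right k hk m g, sum_sub_distrib, e]

end Gn

/-! ### Existence -/

open Classical in
/-- the state `(γ, R)`, `d` steps below the top scale `n` -/
noncomputable def st (n : ℕ) (M : ℕ → ℝ) (X : ℕ → ℤ → Matrix ι ι ℝ) :
    ℕ → ℤ → ℕ × (ℕ → Matrix ι ι ℝ)
  | 0, _ => (0, fun _ => 0)
  | d + 1, i =>
    let s := st n M X d (i / 2)
    let ρ : ℕ → Matrix ι ι ℝ := fun g =>
      if i % 2 = 0 then s.2 g + (if s.1 = g then X (n - d) (i / 2) else 0)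
      else s.2 g - (if s.1 = g then X (n - d) (i / 2) else 0)
    (if tr6 (ρ s.1) ≤ M s.1 then s.1 else s.1 + 1, ρ)

/-- **Existence of the generations.** -/
theorem exists_gn (n : ℕ) (M : ℕ → ℝ) (X : ℕ → ℤ → Matrix ι ι ℝ) : ∃ γ R, Gn n M X γ R := by
  refine ⟨fun k m => (st n M X (n - k) m).1, fun g k m => (st n M X (n - k) m).2 g,
    ⟨?_, ?_, ?_, ?_, ?_, ?_⟩⟩
  · intro g m
    simp only [Nat.sub_self, st]
  · intro m
    simp only [Nat.sub_self, st]
  · intro k hk m g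
    have e : n - k = (n - (k + 1)) + 1 := by omega
    have e2 : n - (n - (k + 1)) = k + 1 := by omega
    have d1 : (2 * m) / 2 = m := by omega
    have d3 : (2 * m) % 2 = 0 := by omega
    simp only [e, st, d1, d3, if_true, e2]
  · intro k hk m g
    have e : n - k = (n - (k + 1)) + 1 := by omega
    have e2 : n - (n - (k + 1)) = k + 1 := by omega
    have d1 : (2 * m + 1) / 2 = m := by omega
    have d3 : ¬ (2 * m + 1) % 2 = 0 := by omega
    simp only [e, st, d1, if_neg d3, e2]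
  · intro k hk m i hi hc
    have e : n - k = (n - (k + 1)) + 1 := by omega
    simp only [e] at hc ⊢
    rw [st] at hc ⊢
    simp only [hi] at hc ⊢
    rw [if_pos hc]
  · intro k hk m i hi hc
    have e : n - k = (n - (k + 1)) + 1 := by omega
    simp only [e] at hc ⊢
    rw [st] at hc ⊢
    simp only [hi] at hc ⊢
    rw [if_neg (not_le.2 hc)]

/-! ### The flow matrices, real ties -/

section tie

variable {l : ℝ} {n : ℕ} {G K : ℕ → ℤ → Matrix ι ι ℝ} {th : ℕ → ℤ → ℝ} {c x1 x3 : ℤ}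

open Vale.Agent.P141.H690 (XT XT_symm XT_sum_le' XT_sq_le tsum_tie MX_sum_le MX_sum_le'
  Pst6_congr)

theorem tsum_nn {f : ℕ → ℤ → ℝ} (hf : ∀ j i, 0 ≤ f j i) : ∀ k m, 0 ≤ H420.tsum f k m := by
  intro k
  induction k with
  | zero => intro m; simp [H420.tsum]
  | succ k ih =>
    intro m
    have h1 := ih (2 * m)
    have h2 := ih (2 * m + 1)
    have h3 := hf (k + 1) m
    simp only [H420.tsum]
    linarith

/-- the flow matrices are contractions -/
theorem MX_op (h : H420.Tr l n G K) {k : ℕ} (hk : k < n) (m : ℤ) (v : ι → ℝ) :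
    (MX l K (k + 1) m *ᵥ v) ⬝ᵥ (MX l K (k + 1) m *ᵥ v) ≤ v ⬝ᵥ v := by
  refine le_trans ?_ (MX_sum_le' h v (show k + 1 ≤ n by omega) m)
  have h1 := tsum_nn (f := fun j i => (MX l K j i *ᵥ v) ⬝ᵥ (MX l K j i *ᵥ v))
    (fun j i => H186.dot_self_nonneg _)
  have h2 := h1 k (2 * m)
  have h3 := h1 k (2 * m + 1)
  simp only [H420.tsum]
  linarith

/-- the family `XT` consists of contractions -/
theorem XT_op (h : H420.Tr l n G K) (hth : ∀ j i, |th j i| ≤ 1) {k : ℕ} (hk : k < n) (i : ℤ)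
    (v : ι → ℝ) :
    (XT l n K th c x1 x3 (k + 1) i *ᵥ v) ⬝ᵥ (XT l n K th c x1 x3 (k + 1) i *ᵥ v) ≤ v ⬝ᵥ v :=
  (XT_sq_le (l := l) (n := n) (K := K) (c := c) (x1 := x1) (x3 := x3) hth v (k + 1) i).trans
    (MX_op h hk _ v)

/-- the first energy: `SUM |X v|² ≤ 3 sup ⟪v, G v⟫ / (2 l)` from the scale `k`. -/
theorem XT_sum_top (h : H420.Tr l n G K) (hth : ∀ j i, |th j i| ≤ 1) (hc : -3 ≤ c)
    (hc' : c ≤ -1) (v : ι → ℝ) {k : ℕ} (hk : k ≤ n) {w : ℝ} (hw : ∀ p, v ⬝ᵥ G k p *ᵥ v ≤ w)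
    (m : ℤ) :
    H420.tsum (fun j i => (XT l n K th c x1 x3 j i *ᵥ v) ⬝ᵥ (XT l n K th c x1 x3 j i *ᵥ v)) k m ≤
      3 * w / (2 * l) := by
  have h1 := tsum_tie (f := fun j i => (XT l n K th c x1 x3 j i *ᵥ v) ⬝ᵥ
    (XT l n K th c x1 x3 j i *ᵥ v)) (g := fun j i => (MX l K j i *ᵥ v) ⬝ᵥ (MX l K j i *ᵥ v))
    (fun j i => H186.dot_self_nonneg _) (x1 := x1) (x3 := x3) hc hc' (k := k) m
    (fun j _ _ i => XT_sq_le hth v j i)
  have hl := h.l_pos
  have h2 : ∀ p, H420.tsum (fun j i => (MX l K j i *ᵥ v) ⬝ᵥ (MX l K j i *ᵥ v)) k p ≤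
      w / (2 * l) := fun p => (MX_sum_le h v hk p).trans
    (div_le_div_of_nonneg_right (hw p) (by linarith))
  have e : 3 * w / (2 * l) = w / (2 * l) + w / (2 * l) + w / (2 * l) := by ring
  rw [e]
  linarith [h2 (-(x1 / 2 ^ k + x3 / 2 ^ k + m) - 3), h2 (-(x1 / 2 ^ k + x3 / 2 ^ k + m) - 2),
    h2 (-(x1 / 2 ^ k + x3 / 2 ^ k + m) - 1)]

/-- the probability from every start cell, `g₀` a bound for the traces at all the cells. -/
theorem XT_stop (h : H420.Tr l n G K) (hth : ∀ j i, |th j i| ≤ 1) (hc : -3 ≤ c)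
    (hc' : c ≤ -1) {k : ℕ} (hk : k ≤ n) {g₀ : ℝ} (hg : ∀ m, (G k m).trace ≤ g₀) {M : ℝ}
    (hM : 0 < M) (m : ℤ) :
    Pst6 (XT l n K th c x1 x3) M k m 0 ≤ 3780000 * g₀ / (l * M) := by
  have h3 : Pst6 (fun j i => th j i • MX l K j (c - i - x1 / 2 ^ j - x3 / 2 ^ j)) M k m 0 =
      Pst6 (XT l n K th c x1 x3) M k m 0 :=
    Pst6_congr M k (fun j _ hj i => by rw [XT, if_pos (by omega)]) m 0
  rw [← h3]
  exact flow_stop6 h hth hc hc' hk hg hM m

/-- **[T4] The generations of the flow at fixed `x₁, x₃`, real ties.**  `κ g` the caps, `T₀` a bound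
for the traces at the top scale `n`, `T₁ ≥ T₀` a bound for the traces at all the cells,
`|θ| ≤ 1`.  There are the generation `γ` and the paths `R g` with: exact steps; `|R g x| ≤
(κ g + 1) |x|` at every cell; the mean of `γ ≥ 1` is at most `3780000 T₀ / (l (κ 0)⁶)`, the mean of
`γ ≥ g + 1` at most `3780000 T₁ / (l (κ g)⁶)` times the mean of `γ ≥ g` (`g ≥ 1`); the energy of the
first generation is at most `3 w / (2 l)`, `w ≥ ⟪v, G v⟫` at the top, the energy of the generation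
`g` at most `3 |v|²` times the mean of `γ ≥ g`. -/
theorem gen_tie (h : H420.Tr l n G K) (hth : ∀ j i, |th j i| ≤ 1) (hc : -3 ≤ c) (hc' : c ≤ -1)
    {κ : ℕ → ℝ} (hκ : ∀ g, 0 < κ g) {T₀ T₁ : ℝ} (hT0 : ∀ m, (G n m).trace ≤ T₀)
    (hT1 : ∀ k ≤ n, ∀ m, (G k m).trace ≤ T₁) :
    ∃ γ R, Gn n (fun g => κ g ^ 6) (XT l n K th c x1 x3) γ R ∧
      (∀ g, ∀ k ≤ n, ∀ m, (R g k m)ᵀ = R g k m) ∧
      (∀ g, ∀ k ≤ n, ∀ m (v : ι → ℝ),
        (R g k m *ᵥ v) ⬝ᵥ (R g k m *ᵥ v) ≤ (κ g + 1) ^ 2 * (v ⬝ᵥ v)) ∧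
      (∀ m, tmean (Gn.ge γ 1 0) n m ≤ 3780000 * T₀ / (l * κ 0 ^ 6)) ∧
      (∀ g, 1 ≤ g → ∀ m, tmean (Gn.ge γ (g + 1) 0) n m ≤
        3780000 * T₁ / (l * κ g ^ 6) * tmean (Gn.ge γ g 0) n m) ∧
      (∀ (v : ι → ℝ) (w : ℝ), (∀ p, v ⬝ᵥ G n p *ᵥ v ≤ w) → ∀ m,
        H420.tsum (fun j i => (XT l n K th c x1 x3 j i *ᵥ v) ⬝ᵥ
          (XT l n K th c x1 x3 j i *ᵥ v)) n m ≤ 3 * w / (2 * l)) ∧
      (∀ (v : ι → ℝ) g m, H420.tsum (fun j i => (if γ j i = g then 1 else 0) *
        ((XT l n K th c x1 x3 j i *ᵥ v) ⬝ᵥ (XT l n K th c x1 x3 j i *ᵥ v))) n m ≤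
          3 * (v ⬝ᵥ v) * tmean (Gn.ge γ g 0) n m) := by
  obtain ⟨γ, R, hG⟩ := exists_gn n (fun g => κ g ^ 6) (XT l n K th c x1 x3)
  have hM : ∀ g, 0 ≤ (fun g => κ g ^ 6) g := fun g => (pow_pos (hκ g) 6).le
  refine ⟨γ, R, hG, fun g k hk m => hG.symm (XT_symm h) g k hk m,
    fun g k hk m v => hG.op_le hM (XT_symm h) (fun k hk m v => XT_op h hth hk m v) (hκ g).le rfl
      v k hk m, fun m => ?_, fun g hg m => ?_, fun v w hw m => ?_, fun v g m => ?_⟩
  · exact (hG.prob_zero m).trans (XT_stop h hth hc hc' le_rfl hT0 (pow_pos (hκ 0) 6) m)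
  · exact hG.prob g (fun k hk m => XT_stop h hth hc hc' hk (hT1 k hk) (pow_pos (hκ g) 6) m) n
      le_rfl m (by rw [hG.topγ]; exact hg)
  · exact XT_sum_top h hth hc hc' v le_rfl hw m
  · have hv := H186.dot_self_nonneg v
    exact hG.energy g (fun j i => H186.dot_self_nonneg _) (by positivity)
      (fun k _ m => XT_sum_le' h hth hc hc' v k m) n le_rfl m

end tie

end Vale.Agent.P141.H970
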